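import Mathlib

/-!
P327: basic vocabulary for the rigidity of the Turing degrees.
-/

namespace Vale.Agent.P327

open Topology

/-- Reals: points of Cantor space. -/
abbrev Cantor := ℕ → Bool

/-- The first `m` bits of `X`. -/
def pre (X : Cantor) (m : ℕ) : List Bool := (List.range m).map X

/-- Approximation functionals: computable maps from finite strings and an input to an optional bit. -/
def Code := {f : List Bool → ℕ → Option Bool // Computable₂ f}

/-- `f` computes `W` from `X`: along the prefixes of `X` it is complete and only correct. -/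
def Computes (f : Code) (X W : Cantor) : Prop :=
  ∀ n, (∃ m, f.1 (pre X m) n = some (W n)) ∧ ∀ m v, f.1 (pre X m) n = some v → v = W n

/-- Turing reducibility on reals. -/
def TLE (W X : Cantor) : Prop := ∃ f : Code, Computes f X W

/-- Turing equivalence on reals. -/
def TEq (X Y : Cantor) : Prop := TLE X Y ∧ TLE Y X

/-- The join of two reals. -/
def join (X Y : Cantor) : Cantor := fun n => if n % 2 = 0 then X (n / 2) else Y (n / 2)

/-- The join of a sequence of reals. -/
def bigJoin (X : ℕ → Cantor) : Cantor := fun n => X n.unpair.1 n.unpair.2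

/-- `half s x` is the part of `x` on the positions congruent to `s` mod 2. -/
def half (s : ℕ) (x : Cantor) : Cantor := fun t => x (2 * t + s)

/-- The characteristic function of a real, as an oracle. -/
def chiB (X : Cantor) : ℕ →. ℕ := fun n => Part.some (bif X n then 1 else 0)

/-- An automorphism of the Turing degrees, given on representatives. -/
structure Auto where
  /-- representative of the image -/
  f : Cantor → Cantor
  /-- representative of the preimage -/
  g : Cantor → Cantor
  fmono : ∀ X Y, TLE (f X) (f Y) ↔ TLE X Y
  gmono : ∀ X Y, TLE (g X) (g Y) ↔ TLE X Y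
  fg : ∀ X, TEq (f (g X)) X
  gf : ∀ X, TEq (g (f X)) X

/-- The inverse automorphism. -/
def Auto.symm (π : Auto) : Auto := ⟨π.g, π.f, π.gmono, π.fmono, π.gf, π.fg⟩

/-- `T` is nonmeagre in every nonempty open subset of `U`. -/
def LargeIn {α : Type*} [TopologicalSpace α] (T U : Set α) : Prop :=
  ∀ V : Set α, IsOpen V → V.Nonempty → V ⊆ U → ¬ IsMeagre (T ∩ V)

/-! ### The two actions -/

/-- The first `j` with `r (pair i j) = false` (0 if there is none). -/
noncomputable def hcol (r : Cantor) (i : ℕ) : ℕ :=
  haveI := Classical.propDecidable (∃ j, r (Nat.pair i j) = false)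
  if h : ∃ j, r (Nat.pair i j) = false then Nat.find h else 0

/-- All columns of `r` contain a `false`. -/
def Valid (r : Cantor) : Prop := ∀ i, ∃ j, r (Nat.pair i j) = false

/-- The permutation with code `pair b m + 1` (for `b < m`) shifts `{b} ∪ [m,∞)` along one
two-sided orbit and fixes the other numbers; all other codes give the identity. -/
def gam (h j : ℕ) : ℕ :=
  if h = 0 ∨ (h - 1).unpair.2 ≤ (h - 1).unpair.1 then j
  else if j = (h - 1).unpair.1 then (h - 1).unpair.2 + 1
  else if j < (h - 1).unpair.2 then j
  else if j = (h - 1).unpair.2 then (h - 1).unpair.1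
  else if (j - (h - 1).unpair.2) % 2 = 1 then j + 2
  else j - 2

/-- The inverse permutation of `gam h`. -/
def gamInv (h j : ℕ) : ℕ :=
  if h = 0 ∨ (h - 1).unpair.2 ≤ (h - 1).unpair.1 then j
  else if j = (h - 1).unpair.1 then (h - 1).unpair.2
  else if j < (h - 1).unpair.2 then j
  else if j = (h - 1).unpair.2 + 1 then (h - 1).unpair.1
  else if (j - (h - 1).unpair.2) % 2 = 1 then j - 2
  else j + 2

/-- Row-wise permutation action. -/
noncomputable def rowAct (r x : Cantor) : Cantor :=
  fun n => x (Nat.pair n.unpair.1 (gam (hcol r n.unpair.1) n.unpair.2))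

/-- Inverse row-wise permutation action. -/
noncomputable def rowActInv (r x : Cantor) : Cantor :=
  fun n => x (Nat.pair n.unpair.1 (gamInv (hcol r n.unpair.1) n.unpair.2))

/-- Add at most one position of the other parity class to each position of class `s`. -/
noncomputable def flipAct (s : ℕ) (y x : Cantor) : Cantor :=
  fun n => if n % 2 = s ∧ hcol y n ≠ 0 then Bool.xor (x n) (x (2 * (hcol y n - 1) + (1 - s)))
    else x n

/-- Overwrite column `i` of `y` so that `hcol` becomes `h`. -/
def setCol (y : Cantor) (i h : ℕ) : Cantor :=
  fun n => if n.unpair.1 = i ∧ n.unpair.2 ≤ h then decide (n.unpair.2 < h) else y n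

end Vale.Agent.P327
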