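import Vale.Agent.P327.Oracle

/-!
P327: measurability of the basic relations and the computability of the two actions.
-/

namespace Vale.Agent.P327

open Topology Filter

theorem measurable_of_bits {α : Type*} [MeasurableSpace α] {F : α → Cantor}
    (h : ∀ n, MeasurableSet {a | F a n = true}) : Measurable F :=
  measurable_pi_iff.2 fun n => measurable_to_bool (h n)

theorem measurableSet_bit {α : Type*} [MeasurableSpace α] {F : α → Cantor} (hF : Measurable F) (n : ℕ)
    (v : Bool) : MeasurableSet {a | F a n = v} :=
  ((measurable_pi_apply n).comp hF) (measurableSet_singleton v)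

theorem measurableSet_eqFun {α : Type*} [MeasurableSpace α] {F G : α → Cantor} (hF : Measurable F)
    (hG : Measurable G) : MeasurableSet {a | F a = G a} := by
  have e : {a | F a = G a} = ⋂ n, ({a | F a n = true} ∩ {a | G a n = true}) ∪
      ({a | F a n = false} ∩ {a | G a n = false}) := by
    ext a
    simp only [Set.mem_ite_univ_right, Set.mem_setOf_eq, Set.mem_iInter, Set.mem_union, Set.mem_inter_iff,
      funext_iff]
    refine forall_congr' fun n => ?_
    cases F a n <;> cases G a n <;> simp
  rw [e]
  exact MeasurableSet.iInter fun n =>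
    ((measurableSet_bit hF n _).inter (measurableSet_bit hG n _)).union
      ((measurableSet_bit hF n _).inter (measurableSet_bit hG n _))

theorem pre_eq_ofFn (X : Cantor) (m : ℕ) : pre X m = List.ofFn fun k : Fin m => X k := by
  apply List.ext_getElem <;> simp [pre]

theorem measurableSet_computes {α : Type*} [MeasurableSpace α] (e : Code) {X W : α → Cantor}
    (hX : Measurable X) (hW : Measurable W) : MeasurableSet {a | Computes e (X a) (W a)} := by
  have key : ∀ m n (P : List Bool → Bool → Prop), MeasurableSet {a | P (pre (X a) m) (W a n)} := by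
    intro m n P
    have hm : Measurable fun a => ((fun k : Fin m => X a k), W a n) :=
      (measurable_pi_iff.2 fun k : Fin m => (measurable_pi_apply (k : ℕ)).comp hX).prodMk
        ((measurable_pi_apply n).comp hW)
    simp only [pre_eq_ofFn]
    exact hm (Set.toFinite {p : (Fin m → Bool) × Bool | P (List.ofFn p.1) p.2}).measurableSet
  simp only [Computes, Set.setOf_forall]
  refine MeasurableSet.iInter fun n => ?_
  rw [Set.setOf_and, Set.setOf_exists, Set.setOf_forall]
  exact (MeasurableSet.iUnion fun m => key m n fun L v => e.1 L n = some v).inter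
    (MeasurableSet.iInter fun m => key m n fun L v => ∀ u, e.1 L n = some u → u = v)

theorem measurableSet_tle {α : Type*} [MeasurableSpace α] {X W : α → Cantor}
    (hX : Measurable X) (hW : Measurable W) : MeasurableSet {a | TLE (W a) (X a)} := by
  simp only [TLE, Set.setOf_exists]
  exact MeasurableSet.iUnion fun e => measurableSet_computes e hX hW

theorem continuous_join : Continuous fun p : Cantor × Cantor => join p.1 p.2 :=
  continuous_pi fun n => by
    unfold join
    split_ifs
    · exact (continuous_apply _).comp continuous_fst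
    · exact (continuous_apply _).comp continuous_snd

theorem measurable_join : Measurable fun p : Cantor × Cantor => join p.1 p.2 :=
  measurable_pi_iff.2 fun n => by
    unfold join
    split_ifs
    · exact (measurable_pi_apply _).comp measurable_fst
    · exact (measurable_pi_apply _).comp measurable_snd

theorem hcol_eq_iff (r : Cantor) (i k : ℕ) :
    hcol r i = k ↔ (r (Nat.pair i k) = false ∧ ∀ j < k, r (Nat.pair i j) = true) ∨
      (k = 0 ∧ ∀ j, r (Nat.pair i j) = true) := by
  unfold hcol
  split
  · next h =>
    rw [Nat.find_eq_iff]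
    constructor
    · rintro ⟨h1, h2⟩; exact Or.inl ⟨h1, fun j hj => by simpa using h2 j hj⟩
    · rintro (⟨h1, h2⟩ | ⟨-, h2⟩)
      · exact ⟨h1, fun j hj => by simp [h2 j hj]⟩
      · obtain ⟨j, hj⟩ := h; simp [h2 j] at hj
  · next h =>
    simp only [not_exists, Bool.not_eq_false] at h
    constructor
    · rintro rfl; exact Or.inr ⟨rfl, h⟩
    · rintro (⟨h1, -⟩ | ⟨rfl, -⟩)
      · simp [h k] at h1
      · rfl

theorem measurable_hcol (i : ℕ) : Measurable fun r : Cantor => hcol r i := by
  refine measurable_to_countable' fun k => ?_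
  have hb : ∀ j v, MeasurableSet {r : Cantor | r (Nat.pair i j) = v} := fun j v =>
    measurableSet_bit measurable_id _ v
  have e : (fun r : Cantor => hcol r i) ⁻¹' {k} =
      ({r | r (Nat.pair i k) = false} ∩ ⋂ j, ⋂ _ : j < k, {r | r (Nat.pair i j) = true}) ∪
        {r | k = 0} ∩ ⋂ j, {r | r (Nat.pair i j) = true} := by
    ext r; simp [hcol_eq_iff]
  rw [e]
  exact ((hb k _).inter (MeasurableSet.iInter fun j => MeasurableSet.iInter fun _ => hb j _)).union
    ((MeasurableSet.const _).inter (MeasurableSet.iInter fun j => hb j _))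

theorem measurable_fun_hcol {G : ℕ → Cantor → Bool} (hG : ∀ h, Measurable (G h)) (i : ℕ) :
    Measurable fun p : Cantor × Cantor => G (hcol p.1 i) p.2 := by
  refine measurable_to_bool ?_
  have e : (fun p : Cantor × Cantor => G (hcol p.1 i) p.2) ⁻¹' {true} =
      ⋃ h, ((fun p : Cantor × Cantor => hcol p.1 i) ⁻¹' {h}) ∩ ((fun p : Cantor × Cantor => G h p.2) ⁻¹' {true}) := by
    ext p; simp
  rw [e]
  exact MeasurableSet.iUnion fun h =>
    (((measurable_hcol i).comp measurable_fst) (measurableSet_singleton h)).inter
      (((hG h).comp measurable_snd) (measurableSet_singleton true))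

theorem measurable_rowAct : Measurable fun p : Cantor × Cantor => rowAct p.1 p.2 :=
  measurable_pi_iff.2 fun n =>
    measurable_fun_hcol (G := fun h x => x (Nat.pair n.unpair.1 (gam h n.unpair.2)))
      (fun _ => measurable_pi_apply _) _

theorem measurable_rowActInv : Measurable fun p : Cantor × Cantor => rowActInv p.1 p.2 :=
  measurable_pi_iff.2 fun n =>
    measurable_fun_hcol (G := fun h x => x (Nat.pair n.unpair.1 (gamInv h n.unpair.2)))
      (fun _ => measurable_pi_apply _) _

theorem measurable_flipAct (s : ℕ) : Measurable fun p : Cantor × Cantor => flipAct s p.1 p.2 :=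
  measurable_pi_iff.2 fun n => by
    refine measurable_fun_hcol (G := fun h x => if n % 2 = s ∧ h ≠ 0 then
      Bool.xor (x n) (x (2 * (h - 1) + (1 - s))) else x n) (fun h => ?_) n
    split_ifs
    · exact (measurable_of_finite fun q : Bool × Bool => Bool.xor q.1 q.2).comp
        (f := fun x : Cantor => (x n, x (2 * (h - 1) + (1 - s))))
        ((measurable_pi_apply n).prodMk (measurable_pi_apply _))
    · exact measurable_pi_apply n

theorem valid_residual : {r : Cantor | Valid r} ∈ residual Cantor := by
  simp only [Valid, Set.setOf_forall]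
  refine countable_iInter_mem.2 fun i => residual_of_dense_open ?_ ?_
  · rw [Set.setOf_exists]
    exact isOpen_iUnion fun j =>
      (isOpen_discrete ({false} : Set Bool)).preimage (f := fun r : Cantor => r (Nat.pair i j))
        (continuous_apply _)
  · intro r
    refine mem_closure_of_tendsto (f := fun n => Function.update r (Nat.pair i n) false) (b := atTop)
      (tendsto_pi_nhds.2 fun k => ?_) (Eventually.of_forall fun n => ⟨n, Function.update_self _ _ _⟩)
    refine tendsto_const_nhds.congr' ?_
    filter_upwards [eventually_gt_atTop k] with n hn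
    exact (Function.update_of_ne (hn.trans_le (Nat.right_le_pair i n)).ne _ _).symm

theorem gam_gamInv (h j : ℕ) : gam h (gamInv h j) = j := by
  unfold gam gamInv
  generalize (h - 1).unpair.1 = b
  generalize (h - 1).unpair.2 = m
  split_ifs <;> omega

theorem gamInv_gam (h j : ℕ) : gamInv h (gam h j) = j := by
  unfold gam gamInv
  generalize (h - 1).unpair.1 = b
  generalize (h - 1).unpair.2 = m
  split_ifs <;> omega

theorem rowActInv_rowAct (r x : Cantor) : rowActInv r (rowAct r x) = x := by
  funext n
  simp [rowAct, rowActInv, gam_gamInv, Nat.pair_unpair]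

theorem rowAct_rowActInv (r x : Cantor) : rowAct r (rowActInv r x) = x := by
  funext n
  simp [rowAct, rowActInv, gamInv_gam, Nat.pair_unpair]

theorem flipAct_flipAct {s : ℕ} (hs : s < 2) (y x : Cantor) : flipAct s y (flipAct s y x) = x := by
  funext n
  unfold flipAct
  by_cases hn : n % 2 = s ∧ hcol y n ≠ 0
  · have hne : (2 * (hcol y n - 1) + (1 - s)) % 2 ≠ s := by omega
    have hs' : (1 - s) % 2 ≠ s := by omega
    simp [hn, hs']
  · simp [hn]

theorem hcol_setCol (y : Cantor) (i h : ℕ) : hcol (setCol y i h) i = h := by
  refine (hcol_eq_iff _ _ _).2 (Or.inl ⟨by simp [setCol], fun j hj => ?_⟩)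
  simp [setCol, hj.le, hj]

theorem hcol_setCol_ne (y : Cantor) {i k : ℕ} (h : ℕ) (hk : k ≠ i) :
    hcol (setCol y i h) k = hcol y k := by
  have e : ∀ j, setCol y i h (Nat.pair k j) = y (Nat.pair k j) := fun j => by simp [setCol, hk]
  have h1 : hcol (setCol y i h) k = hcol y k := by
    refine (hcol_eq_iff _ _ _).2 ?_
    simp only [e]
    exact (hcol_eq_iff y k _).1 rfl
  exact h1

/-! ### Computability of the actions -/

theorem getElem?_pre (X : Cantor) (m k : ℕ) :
    (pre X m)[k]? = if k < m then some (X k) else none := by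
  unfold pre
  rw [List.getElem?_map]
  split_ifs with h
  · rw [List.getElem?_range h]; rfl
  · rw [List.getElem?_eq_none (by simpa using h)]; rfl

theorem join_even (x y : Cantor) (k : ℕ) : join x y (2 * k) = x k := by simp [join]

theorem join_odd (x y : Cantor) (k : ℕ) : join x y (2 * k + 1) = y k := by
  simp [join, Nat.add_mod, show (2 * k + 1) / 2 = k by omega]

/-- The first position of column `i` of the second part where `L` does not show `true`. -/
def colPos (L : List Bool) (i : ℕ) : ℕ :=
  (List.range (L.length + 1)).findIdx fun j => !decide (L[2 * Nat.pair i j + 1]? = some true)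

/-- `hcol` of the second part, if `L` determines it. -/
def colRead (L : List Bool) (i : ℕ) : Option ℕ :=
  if L[2 * Nat.pair i (colPos L i) + 1]? = some false then some (colPos L i) else none

theorem colPos_spec (L : List Bool) (i : ℕ) :
    L[2 * Nat.pair i (colPos L i) + 1]? ≠ some true ∧
      ∀ j < colPos L i, L[2 * Nat.pair i j + 1]? = some true := by
  set p : ℕ → Bool := fun j => !decide (L[2 * Nat.pair i j + 1]? = some true)
  have hlast : L[2 * Nat.pair i L.length + 1]? = none :=
    List.getElem?_eq_none (by have := Nat.right_le_pair i L.length; omega)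
  have hlt : colPos L i < (List.range (L.length + 1)).length :=
    List.findIdx_lt_length_of_exists ⟨L.length, by simp, by simp [hlast]⟩
  refine ⟨?_, fun j hj => ?_⟩
  · have h1 := List.findIdx_getElem (p := p) (w := hlt)
    have key : ∀ idx (w : idx < (List.range (L.length + 1)).length),
        p ((List.range (L.length + 1))[idx]'w) = true → p idx = true := fun idx w h => by
      rwa [List.getElem_range] at h
    simpa [p, colPos] using key _ _ h1
  · have := List.not_of_lt_findIdx (p := p) hj
    simpa [p] using this

theorem colRead_sound {x r : Cantor} {m i h : ℕ} (e : colRead (pre (join x r) m) i = some h) :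
    hcol r i = h := by
  have hs := colPos_spec (pre (join x r) m) i
  unfold colRead at e
  split_ifs at e with he
  · obtain rfl := Option.some.inj e
    simp only [getElem?_pre, join_odd, Option.ite_none_right_eq_some, Option.some.injEq] at hs he
    exact (hcol_eq_iff _ _ _).2 (Or.inl ⟨he.2, fun j hj => (hs.2 j hj).2⟩)

theorem colRead_complete {x r : Cantor} (hr : Valid r) {m i : ℕ}
    (hm : 2 * Nat.pair i (hcol r i) + 1 < m) : colRead (pre (join x r) m) i = some (hcol r i) := by
  obtain ⟨j0, hj0⟩ := hr i
  have hh : r (Nat.pair i (hcol r i)) = false ∧ ∀ j < hcol r i, r (Nat.pair i j) = true := by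
    rcases (hcol_eq_iff r i _).1 rfl with h | h
    · exact h
    · simp [h.2 j0] at hj0
  have hs := colPos_spec (pre (join x r) m) i
  have hle : ∀ j ≤ hcol r i, (pre (join x r) m)[2 * Nat.pair i j + 1]? = some (r (Nat.pair i j)) := by
    intro j hj
    rw [getElem?_pre, if_pos, join_odd]
    rcases hj.lt_or_eq with h | h
    · have := Nat.pair_lt_pair_right i h; omega
    · rw [h]; exact hm
  have e : colPos (pre (join x r) m) i = hcol r i := by
    rcases lt_trichotomy (colPos (pre (join x r) m) i) (hcol r i) with h | h | h
    · exact absurd (by rw [hle _ h.le, hh.2 _ h]) hs.1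
    · exact h
    · have := hs.2 _ h
      rw [hle _ le_rfl, hh.1] at this
      simp at this
  simp [colRead, e, hle _ le_rfl, hh.1]

/-- An operation on `x` steered by the `hcol` of one column of `r` is computable from `join x r`. -/
theorem tle_of_colRead {x r W : Cantor} (hr : Valid r) (col : ℕ → ℕ)
    (G : List Bool → ℕ → ℕ → Option Bool)
    (hG : Computable₂ fun L n => (colRead L (col n)).bind (G L n))
    (hsound : ∀ m n v, G (pre (join x r) m) n (hcol r (col n)) = some v → v = W n)
    (hcomplete : ∀ n, ∃ m0, ∀ m ≥ m0, G (pre (join x r) m) n (hcol r (col n)) = some (W n)) :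
    TLE W (join x r) := by
  refine tle_of_approx _ hG fun n => ⟨?_, fun m v e => ?_⟩
  · obtain ⟨m0, hm0⟩ := hcomplete n
    refine ⟨max m0 (2 * Nat.pair (col n) (hcol r (col n)) + 2), ?_⟩
    show Option.bind _ _ = _
    rw [colRead_complete hr (by omega), Option.bind_some]
    exact hm0 _ (le_max_left _ _)
  · obtain ⟨h, h1, h2⟩ := Option.bind_eq_some_iff.1 e
    rw [← colRead_sound h1] at h2
    exact hsound m n v h2

theorem primrec_colRead : Primrec₂ colRead := by
  have hget : Primrec₂ fun (q : List Bool × ℕ) (j : ℕ) => q.1[2 * Nat.pair q.2 j + 1]? :=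
    Primrec₂.mk <| Primrec.list_getElem?.comp (Primrec.fst.comp Primrec.fst)
      (Primrec.succ.comp (Primrec.nat_mul.comp (Primrec.const 2)
        (Primrec₂.natPair.comp (Primrec.snd.comp Primrec.fst) Primrec.snd)))
  have hpos : Primrec₂ colPos := Primrec₂.mk <|
    Primrec.list_findIdx
      (Primrec.list_range.comp (Primrec.succ.comp (Primrec.list_length.comp Primrec.fst)))
      (Primrec₂.mk <| Primrec.not.comp (Primrec.eq.decide.comp
        (hget.comp Primrec.fst Primrec.snd) (Primrec.const (some true))))
  exact Primrec₂.mk <| Primrec.ite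
    (Primrec.eq.comp (hget.comp Primrec.id hpos) (Primrec.const (some false)))
    (Primrec.option_some.comp hpos) (Primrec.const none)

theorem primrec_gam : Primrec₂ gam := by
  have b : Primrec fun p : ℕ × ℕ => (p.1 - 1).unpair.1 :=
    Primrec.fst.comp (Primrec.unpair.comp (Primrec.nat_sub.comp Primrec.fst (Primrec.const 1)))
  have m : Primrec fun p : ℕ × ℕ => (p.1 - 1).unpair.2 :=
    Primrec.snd.comp (Primrec.unpair.comp (Primrec.nat_sub.comp Primrec.fst (Primrec.const 1)))
  exact Primrec₂.mk <| Primrec.ite
    ((Primrec.eq.comp Primrec.fst (Primrec.const 0)).or (Primrec.nat_le.comp m b)) Primrec.snd <|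
    Primrec.ite (Primrec.eq.comp Primrec.snd b) (Primrec.succ.comp m) <|
    Primrec.ite (Primrec.nat_lt.comp Primrec.snd m) Primrec.snd <|
    Primrec.ite (Primrec.eq.comp Primrec.snd m) b <|
    Primrec.ite
      (Primrec.eq.comp (Primrec.nat_mod.comp (Primrec.nat_sub.comp Primrec.snd m) (Primrec.const 2))
        (Primrec.const 1))
      (Primrec.nat_add.comp Primrec.snd (Primrec.const 2))
      (Primrec.nat_sub.comp Primrec.snd (Primrec.const 2))

theorem primrec_gamInv : Primrec₂ gamInv := by
  have b : Primrec fun p : ℕ × ℕ => (p.1 - 1).unpair.1 :=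
    Primrec.fst.comp (Primrec.unpair.comp (Primrec.nat_sub.comp Primrec.fst (Primrec.const 1)))
  have m : Primrec fun p : ℕ × ℕ => (p.1 - 1).unpair.2 :=
    Primrec.snd.comp (Primrec.unpair.comp (Primrec.nat_sub.comp Primrec.fst (Primrec.const 1)))
  exact Primrec₂.mk <| Primrec.ite
    ((Primrec.eq.comp Primrec.fst (Primrec.const 0)).or (Primrec.nat_le.comp m b)) Primrec.snd <|
    Primrec.ite (Primrec.eq.comp Primrec.snd b) m <|
    Primrec.ite (Primrec.nat_lt.comp Primrec.snd m) Primrec.snd <|
    Primrec.ite (Primrec.eq.comp Primrec.snd (Primrec.succ.comp m)) b <|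
    Primrec.ite
      (Primrec.eq.comp (Primrec.nat_mod.comp (Primrec.nat_sub.comp Primrec.snd m) (Primrec.const 2))
        (Primrec.const 1))
      (Primrec.nat_sub.comp Primrec.snd (Primrec.const 2))
      (Primrec.nat_add.comp Primrec.snd (Primrec.const 2))

theorem perm_tle {r : Cantor} (hr : Valid r) (x : Cantor) {g : ℕ → ℕ → ℕ} (hg : Primrec₂ g) :
    TLE (fun n => x (Nat.pair n.unpair.1 (g (hcol r n.unpair.1) n.unpair.2))) (join x r) := by
  have hi : Primrec fun p : List Bool × ℕ => p.2.unpair.1 :=
    Primrec.fst.comp (Primrec.unpair.comp Primrec.snd)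
  refine tle_of_colRead hr (fun n => n.unpair.1)
    (fun L n h => L[2 * Nat.pair n.unpair.1 (g h n.unpair.2)]?) ?_ (fun m n v e => ?_) fun n => ?_
  · exact (Primrec₂.mk <| Primrec.option_bind
      (f := fun p : List Bool × ℕ => colRead p.1 p.2.unpair.1)
      (g := fun p h => p.1[2 * Nat.pair p.2.unpair.1 (g h p.2.unpair.2)]?)
      (primrec_colRead.comp Primrec.fst hi) <| Primrec₂.mk <|
      Primrec.list_getElem?.comp (Primrec.fst.comp Primrec.fst) (Primrec.nat_mul.comp (Primrec.const 2)
        (Primrec₂.natPair.comp (hi.comp Primrec.fst) (hg.comp Primrec.snd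
          (Primrec.snd.comp (Primrec.unpair.comp (Primrec.snd.comp Primrec.fst))))))).to_comp
  · simp only [getElem?_pre, join_even, Option.ite_none_right_eq_some, Option.some.injEq] at e
    exact e.2.symm
  · refine ⟨2 * Nat.pair n.unpair.1 (g (hcol r n.unpair.1) n.unpair.2) + 1, fun m hm => ?_⟩
    simp only [getElem?_pre, join_even]
    rw [if_pos (by omega)]

theorem rowAct_tle {r : Cantor} (hr : Valid r) (x : Cantor) :
    TLE (rowAct r x) (join x r) := perm_tle hr x primrec_gam

theorem rowActInv_tle {r : Cantor} (hr : Valid r) (x : Cantor) :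
    TLE (rowActInv r x) (join x r) := perm_tle hr x primrec_gamInv

theorem flipAct_tle (s : ℕ) {y : Cantor} (hy : Valid y) (x : Cantor) :
    TLE (flipAct s y x) (join x y) := by
  have hx : ∀ {α : Type} [Primcodable α] {f : α → List Bool} {k : α → ℕ}, Primrec f → Primrec k →
      Primrec fun a => (f a)[2 * k a]? := fun hf hk =>
    Primrec.list_getElem?.comp hf (Primrec.nat_mul.comp (Primrec.const 2) hk)
  refine tle_of_colRead hy id (fun L n h => if n % 2 = s ∧ h ≠ 0 then
      L[2 * n]?.bind fun u => L[2 * (2 * (h - 1) + (1 - s))]?.map fun w => Bool.xor u w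
    else L[2 * n]?) ?_ (fun m n v e => ?_) fun n => ?_
  · refine (Primrec₂.mk <| Primrec.option_bind (f := fun p : List Bool × ℕ => colRead p.1 p.2)
      (g := fun p h => if p.2 % 2 = s ∧ h ≠ 0 then
        p.1[2 * p.2]?.bind fun u => p.1[2 * (2 * (h - 1) + (1 - s))]?.map fun w => Bool.xor u w
        else p.1[2 * p.2]?)
      (primrec_colRead.comp Primrec.fst Primrec.snd) <|
      Primrec₂.mk <| Primrec.ite
        ((Primrec.eq.comp (Primrec.nat_mod.comp (Primrec.snd.comp Primrec.fst) (Primrec.const 2))
          (Primrec.const s)).and (Primrec.eq.comp Primrec.snd (Primrec.const 0)).not)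
        (Primrec.option_bind (hx (Primrec.fst.comp Primrec.fst) (Primrec.snd.comp Primrec.fst)) ?_)
        (hx (Primrec.fst.comp Primrec.fst) (Primrec.snd.comp Primrec.fst))).to_comp
    exact Primrec₂.mk <| Primrec.option_map
      (hx (Primrec.fst.comp (Primrec.fst.comp Primrec.fst))
        (Primrec.nat_add.comp (Primrec.nat_mul.comp (Primrec.const 2)
          (Primrec.nat_sub.comp (Primrec.snd.comp Primrec.fst) (Primrec.const 1))) (Primrec.const (1 - s))))
      (Primrec₂.mk <| (Primrec.dom_bool₂ Bool.xor).comp (Primrec.snd.comp Primrec.fst) Primrec.snd)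
  · simp only [id_eq] at e ⊢
    unfold flipAct
    split_ifs at e with hc
    · rw [if_pos hc]
      obtain ⟨u, hu, e⟩ := Option.bind_eq_some_iff.1 e
      obtain ⟨w, hw, rfl⟩ := Option.map_eq_some_iff.1 e
      simp only [getElem?_pre, join_even, Option.ite_none_right_eq_some, Option.some.injEq] at hu hw
      rw [hu.2, hw.2]
    · rw [if_neg hc]
      simp only [getElem?_pre, join_even, Option.ite_none_right_eq_some, Option.some.injEq] at e
      exact e.2.symm
  · refine ⟨2 * n + 2 * (2 * (hcol y n - 1) + (1 - s)) + 1, fun m hm => ?_⟩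
    simp only [id_eq, flipAct, getElem?_pre, join_even]
    rw [if_pos (show 2 * n < m by omega), if_pos (show 2 * (2 * (hcol y n - 1) + (1 - s)) < m by omega)]
    split_ifs <;> rfl

end Vale.Agent.P327
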