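import Vale.Agent.P327.Basic

namespace Vale.Agent.P327

open Topology Filter Set

variable {α β : Type*} [TopologicalSpace α] [TopologicalSpace β]

theorem exists_largeIn [SecondCountableTopology α] {T : Set α} (hT : ¬ IsMeagre T) :
    ∃ U : Set α, IsOpen U ∧ U.Nonempty ∧ LargeIn T U := by
  by_contra hc
  push Not at hc
  set W : Set (Set α) := {V ∈ TopologicalSpace.countableBasis α | IsMeagre (T ∩ V)} with hW
  have hWc : W.Countable :=
    (TopologicalSpace.countable_countableBasis α).mono fun V hV => hV.1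
  have hWo : IsOpen (⋃₀ W) :=
    isOpen_sUnion fun V hV => TopologicalSpace.isOpen_of_mem_countableBasis hV.1
  have hWd : Dense (⋃₀ W) := by
    rw [dense_iff_inter_open]
    intro U hU hne
    have h := hc U hU hne
    simp only [LargeIn, not_forall, not_not] at h
    obtain ⟨V, hVo, ⟨v, hv⟩, hVU, hVm⟩ := h
    obtain ⟨b, hb, hvb, hbV⟩ :=
      (TopologicalSpace.isBasis_countableBasis α).exists_subset_of_mem_open hv hVo
    exact ⟨v, hVU hv, mem_sUnion.2 ⟨b, ⟨hb, hVm.mono (Set.inter_subset_inter_right T hbV)⟩, hvb⟩⟩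
  have h1 : IsMeagre (⋃₀ W)ᶜ := by
    rw [IsMeagre, compl_compl]
    exact residual_of_dense_open hWo hWd
  have h2 : IsMeagre (⋃ V ∈ W, T ∩ V) := isMeagre_biUnion hWc fun V hV => hV.2
  refine hT ((h2.union h1).mono ?_)
  intro x hx
  by_cases h : x ∈ ⋃₀ W
  · obtain ⟨V, hV, hxV⟩ := mem_sUnion.1 h
    exact Or.inl (mem_iUnion₂.2 ⟨V, hV, hx, hxV⟩)
  · exact Or.inr h

theorem isMeagre_of_residualEq {s u : Set α} (h : s =ᶠ[residual α] u) :
    IsMeagre (s \ u) ∧ IsMeagre (u \ s) := by
  rw [Filter.eventuallyEq_set] at h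
  constructor <;>
  · refine Filter.mem_of_superset h ?_
    intro x hx
    simp only [mem_setOf_eq] at hx
    simp only [mem_compl_iff, Set.mem_sdiff, hx]
    tauto

theorem isMeagre_diff_of_largeIn {T U B : Set α} (hU : IsOpen U) (h : LargeIn T U)
    (hB : BaireMeasurableSet B) (hTB : T ∩ U ⊆ B) : IsMeagre (U \ B) := by
  obtain ⟨u, huo, hu⟩ := (hU.baireMeasurableSet.diff hB).residualEq_isOpen
  obtain ⟨h1, h2⟩ := isMeagre_of_residualEq hu
  by_contra hm
  by_cases hne : (u ∩ U).Nonempty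
  · refine h (u ∩ U) (huo.inter hU) hne Set.inter_subset_right (h2.mono ?_)
    rintro x ⟨hT, hxu, hxU⟩
    exact ⟨hxu, fun hx => hx.2 (hTB ⟨hT, hxU⟩)⟩
  · refine hm (h1.mono ?_)
    intro x hx
    exact ⟨hx, fun hxu => hne ⟨x, hxu, hx.1⟩⟩

theorem exists_isOpen_isMeagre_diff {B : Set α} (hB : BaireMeasurableSet B) (h : ¬ IsMeagre B) :
    ∃ U : Set α, IsOpen U ∧ U.Nonempty ∧ IsMeagre (U \ B) := by
  obtain ⟨u, huo, hu⟩ := hB.residualEq_isOpen
  obtain ⟨h1, h2⟩ := isMeagre_of_residualEq hu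
  refine ⟨u, huo, Set.nonempty_iff_ne_empty.2 fun he => h ?_, h2⟩
  simpa [he] using h1

theorem eventually_isMeagre_section [SecondCountableTopology β] {M : Set (α × β)}
    (hM : IsMeagre M) : ∀ᶠ a in residual α, IsMeagre {b | (a, b) ∈ M} := by
  obtain ⟨S, hS, hSc, hMS⟩ := isMeagre_iff_countable_union_isNowhereDense.1 hM
  have key : ∀ t ∈ S, ∀ V ∈ TopologicalSpace.countableBasis β,
      ∀ᶠ a in residual α, ∃ b ∈ V, (a, b) ∉ closure t := by
    intro t ht V hV
    obtain ⟨v, hv⟩ := TopologicalSpace.nonempty_of_mem_countableBasis hV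
    have hVo := TopologicalSpace.isOpen_of_mem_countableBasis hV
    have heq : {a | ∃ b ∈ V, (a, b) ∉ closure t} = Prod.fst '' ((univ ×ˢ V) \ closure t) := by
      ext a
      constructor
      · rintro ⟨b, hb, hn⟩
        exact ⟨(a, b), ⟨⟨trivial, hb⟩, hn⟩, rfl⟩
      · rintro ⟨⟨a', b⟩, ⟨⟨-, hb⟩, hn⟩, rfl⟩
        exact ⟨b, hb, hn⟩
    refine residual_of_dense_open ?_ ?_
    · show IsOpen {a | ∃ b ∈ V, (a, b) ∉ closure t}
      rw [heq]
      exact isOpenMap_fst _ ((isOpen_univ.prod hVo).sdiff isClosed_closure)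
    · rw [dense_iff_inter_open]
      intro A hA ⟨x, hx⟩
      by_contra hne
      have hsub : A ×ˢ V ⊆ closure t := by
        rintro ⟨a, b⟩ ⟨ha, hb⟩
        by_contra hn
        exact hne ⟨a, ha, b, hb, hn⟩
      have : (x, v) ∈ interior (closure t) :=
        interior_maximal hsub (hA.prod hVo) ⟨hx, hv⟩
      rw [hS t ht] at this
      exact this
  have hall : ∀ᶠ a in residual α, ∀ t ∈ S, ∀ V ∈ TopologicalSpace.countableBasis β,
      ∃ b ∈ V, (a, b) ∉ closure t :=
    (eventually_countable_ball hSc).2 fun t ht =>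
      (eventually_countable_ball (TopologicalSpace.countable_countableBasis β)).2 (key t ht)
  filter_upwards [hall] with a ha
  refine IsMeagre.mono (t := {b | (a, b) ∈ M}) (s := ⋃ t ∈ S, {b | (a, b) ∈ closure t}) ?_ ?_
  · intro b hb
    obtain ⟨t, ht, hbt⟩ := mem_sUnion.1 (hMS hb)
    exact mem_iUnion₂.2 ⟨t, ht, subset_closure hbt⟩
  · refine isMeagre_biUnion hSc fun t ht => IsNowhereDense.isMeagre ?_
    have hcl : IsClosed {b | (a, b) ∈ closure t} :=
      isClosed_closure.preimage (Continuous.prodMk_right a)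
    rw [hcl.isNowhereDense_iff, Set.eq_empty_iff_forall_notMem]
    intro b hb
    obtain ⟨V, hV, hbV, hVs⟩ := (TopologicalSpace.isBasis_countableBasis β).exists_subset_of_mem_open
      hb isOpen_interior
    obtain ⟨b', hb', hn⟩ := ha t ht V hV
    exact hn (show b' ∈ {b | (a, b) ∈ closure t} from interior_subset (hVs hb'))

theorem isMeagre_of_sections [BaireSpace α] [BaireSpace β] [SecondCountableTopology β]
    {M : Set (α × β)} (hM : BaireMeasurableSet M)
    (h : ∀ᶠ a in residual α, IsMeagre {b | (a, b) ∈ M}) : IsMeagre M := by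
  by_contra hm
  obtain ⟨U, hUo, ⟨⟨a₀, b₀⟩, hu⟩, hUm⟩ := exists_isOpen_isMeagre_diff hM hm
  obtain ⟨A, B, hA, hB, ha, hb, hAB⟩ := isOpen_prod_iff.1 hUo a₀ b₀ hu
  obtain ⟨a, haA, h1, h2⟩ :=
    (dense_of_mem_residual (h.and (eventually_isMeagre_section hUm))).inter_open_nonempty A hA
      ⟨a₀, ha⟩
  refine not_isMeagre_of_isOpen hB ⟨b₀, hb⟩ ((h1.union h2).mono ?_)
  intro b hbB
  by_cases hbM : (a, b) ∈ M
  · exact Or.inl hbM
  · exact Or.inr ⟨hAB ⟨haA, hbB⟩, hbM⟩

theorem not_isMeagre_prod [SecondCountableTopology β] {A : Set α} {B : Set β}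
    (hA : ¬ IsMeagre A) (hB : ¬ IsMeagre B) : ¬ IsMeagre (A ×ˢ B) := by
  intro hm
  refine hA (Filter.mem_of_superset (eventually_isMeagre_section hm) ?_)
  intro a ha haA
  have ha' : IsMeagre {b | (a, b) ∈ A ×ˢ B} := ha
  refine hB (ha'.mono ?_)
  intro b hb
  exact ⟨haA, hb⟩

theorem isMeagre_of_preimage [BaireSpace α] {f : α → β} (hc : Continuous f) (ho : IsOpenMap f)
    (hs : Function.Surjective f) {B : Set β} (hB : BaireMeasurableSet B)
    (h : IsMeagre (f ⁻¹' B)) : IsMeagre B := by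
  by_contra hm
  obtain ⟨U, hUo, ⟨u, hu⟩, hUm⟩ := exists_isOpen_isMeagre_diff hB hm
  obtain ⟨x, rfl⟩ := hs u
  refine not_isMeagre_of_isOpen (hUo.preimage hc) ⟨x, hu⟩
    (((hUm.preimage_of_isOpenMap hc ho).union h).mono ?_)
  intro y hy
  by_cases hyB : f y ∈ B
  · exact Or.inr hyB
  · exact Or.inl ⟨hy, hyB⟩

theorem exists_cylinder_subset {U : Set Cantor} (hU : IsOpen U) (hne : U.Nonempty) :
    ∃ (x : Cantor) (N : ℕ), ∀ M, N ≤ M → PiNat.cylinder x M ⊆ U := by
  obtain ⟨y, hy⟩ := hne
  obtain ⟨_, ⟨x, N, rfl⟩, -, hsub⟩ :=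
    (PiNat.isTopologicalBasis_cylinders (fun _ : ℕ => Bool)).exists_subset_of_mem_open hy hU
  exact ⟨x, N, fun M hM => (PiNat.cylinder_anti x hM).trans hsub⟩

/-- Flipping one coordinate. -/
def flipBit (b : ℕ) (x : Cantor) : Cantor := fun n => if n = b then !x n else x n

theorem flipBit_flipBit (b : ℕ) (x : Cantor) : flipBit b (flipBit b x) = x := by
  funext n
  by_cases h : n = b <;> simp [flipBit, h]

theorem continuous_flipBit (b : ℕ) : Continuous (flipBit b) := by
  refine continuous_pi fun n => ?_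
  unfold flipBit
  by_cases h : n = b
  · simp only [if_pos h]
    exact Continuous.comp (g := fun v : Bool => !v) (f := fun x : Cantor => x n)
      continuous_of_discreteTopology (continuous_apply n)
  · simp only [if_neg h]
    exact continuous_apply n

theorem isOpenMap_flipBit (b : ℕ) : IsOpenMap (flipBit b) := fun U hU => by
  rw [congrFun (Set.image_eq_preimage_of_inverse (flipBit_flipBit b) (flipBit_flipBit b)) U]
  exact hU.preimage (continuous_flipBit b)

/-- Inside an open set where a Baire set is comeagre there is a cylinder, as long as wanted, inside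
any given open set that meets the Baire set in a nonmeagre set. -/
theorem exists_cylinder_inter {V : Set Cantor} (hV : IsOpen V) {S : Set Cantor}
    (hS : BaireMeasurableSet S) (h : ¬ IsMeagre (V ∩ S)) (K : ℕ) :
    ∃ q N, K ≤ N ∧ PiNat.cylinder q N ⊆ V ∧ IsMeagre (PiNat.cylinder q N \ S) := by
  obtain ⟨U, hUo, hUne, hUm⟩ := exists_isOpen_isMeagre_diff (hV.baireMeasurableSet.inter hS) h
  have hne : (U ∩ V).Nonempty := by
    by_contra hne
    refine not_isMeagre_of_isOpen hUo hUne (hUm.mono ?_)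
    intro x hx
    exact ⟨hx, fun hxV => hne ⟨x, hx, hxV.1⟩⟩
  obtain ⟨q, N, hqN⟩ := exists_cylinder_subset (hUo.inter hV) hne
  refine ⟨q, max N K, le_max_right _ _, fun x hx => (hqN _ (le_max_left _ _) hx).2, hUm.mono ?_⟩
  intro x hx
  exact ⟨(hqN _ (le_max_left _ _) hx.1).1, fun h' => hx.2 h'.2⟩

/-- Tail dependence of a countable-to-one measurable map: some output bit is, on two adjacent
cylinders of `C`, almost everywhere a given input bit from `D` xor a constant. -/
theorem tailDep {F : Cantor → Cantor} (hF : Measurable F) {G : ℕ → Cantor → Cantor}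
    (hG : ∀ a, Measurable (G a)) {T : Set Cantor} (hinv : ∀ x ∈ T, ∃ a, G a (F x) = x)
    (D : Set ℕ) (hD : ∀ M, ∃ b ∈ D, M ≤ b) (z : Cantor) (L : ℕ)
    (hT : ¬ IsMeagre (T ∩ PiNat.cylinder z L)) :
    ∃ b ∈ D, L ≤ b ∧ ∃ (p : Cantor) (N k₀ : ℕ) (c : Bool), b < N ∧ p ∈ PiNat.cylinder z L ∧
      IsMeagre {x : Cantor | (∀ i < N, i ≠ b → x i = p i) ∧ F x k₀ ≠ Bool.xor (x b) c} := by
  have hC : IsOpen (PiNat.cylinder z L) := PiNat.isOpen_cylinder _ _ _
  have hbit : ∀ k, Measurable fun x => F x k := fun k => (measurable_pi_apply k).comp hF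
  have hflip : ∀ b k, MeasurableSet {x | F x k ≠ F (flipBit b x) k} := fun b k =>
    (measurableSet_eq_fun (hbit k) ((hbit k).comp (continuous_flipBit b).measurable)).compl
  by_cases hcase : ∃ b ∈ D, L ≤ b ∧ ∃ k,
      ¬ IsMeagre (PiNat.cylinder z L ∩ {x | F x k ≠ F (flipBit b x) k})
  · obtain ⟨b, hbD, hLb, k, hk⟩ := hcase
    obtain ⟨p, N₀, hN₀, hpC, hp⟩ :=
      exists_cylinder_inter hC (hflip b k).baireMeasurableSet hk (b + 1)
    obtain ⟨v, q, N, hN, hqp, hq⟩ : ∃ v q N, N₀ ≤ N ∧ PiNat.cylinder q N ⊆ PiNat.cylinder p N₀ ∧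
        IsMeagre (PiNat.cylinder q N \ {x | F x k = v}) := by
      by_cases h : IsMeagre (PiNat.cylinder p N₀ ∩ {x | F x k = true})
      · refine ⟨false, p, N₀, le_rfl, subset_rfl, h.mono ?_⟩
        intro x hx
        exact ⟨hx.1, by simpa using hx.2⟩
      · obtain ⟨q, N, hN, h1, h2⟩ := exists_cylinder_inter (PiNat.isOpen_cylinder _ _ _)
          ((hbit k) (measurableSet_singleton true)).baireMeasurableSet h N₀
        exact ⟨true, q, N, hN, h1, h2⟩
    have hbN : b < N := by omega
    refine ⟨b, hbD, hLb, q, N, k, Bool.xor v (q b), hbN, hpC (hqp (PiNat.self_mem_cylinder q N)), ?_⟩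
    refine ((hq.union (hq.preimage_of_isOpenMap (continuous_flipBit b) (isOpenMap_flipBit b))).union
      (hp.preimage_of_isOpenMap (continuous_flipBit b) (isOpenMap_flipBit b))).mono ?_
    rintro x ⟨hx, hne⟩
    by_cases hxb : x b = q b
    · refine Or.inl (Or.inl ⟨?_, ?_⟩)
      · rw [PiNat.mem_cylinder_iff]
        intro i hi
        by_cases hib : i = b
        · rw [hib, hxb]
        · exact hx i hi hib
      · intro hv
        apply hne
        rw [show F x k = v from hv, hxb]
        cases v <;> cases q b <;> rfl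
    · have hcyl : flipBit b x ∈ PiNat.cylinder q N := by
        rw [PiNat.mem_cylinder_iff]
        intro i hi
        by_cases hib : i = b
        · subst hib
          cases hh : x i <;> cases hh' : q i <;> simp_all [flipBit]
        · simp [flipBit, hib, hx i hi hib]
      by_cases hv : F (flipBit b x) k = v
      · refine Or.inr ⟨hqp hcyl, ?_⟩
        show ¬ F (flipBit b x) k ≠ F (flipBit b (flipBit b x)) k
        rw [flipBit_flipBit, hv, not_not]
        revert hne hxb
        cases F x k <;> cases v <;> cases x b <;> cases q b <;> simp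
      · exact Or.inl (Or.inr ⟨hcyl, hv⟩)
  · push Not at hcase
    have hcov : T ∩ PiNat.cylinder z L ⊆
        ⋃ a, PiNat.cylinder z L ∩ {x | G a (F x) = x} := by
      intro x hx
      obtain ⟨a, ha⟩ := hinv x hx.1
      exact mem_iUnion.2 ⟨a, hx.2, ha⟩
    obtain ⟨a, ha⟩ : ∃ a, ¬ IsMeagre (PiNat.cylinder z L ∩ {x | G a (F x) = x}) := by
      by_contra hc
      push Not at hc
      exact hT ((isMeagre_iUnion hc).mono hcov)
    have hm : MeasurableSet {x | G a (F x) = x} := by
      have : {x | G a (F x) = x} = ⋂ n, {x | G a (F x) n = x n} := by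
        ext x
        simp [funext_iff]
      rw [this]
      exact MeasurableSet.iInter fun n =>
        measurableSet_eq_fun ((measurable_pi_apply n).comp ((hG a).comp hF)) (measurable_pi_apply n)
    obtain ⟨q, N, -, hqC, hq⟩ := exists_cylinder_inter hC hm.baireMeasurableSet ha 0
    obtain ⟨b, hbD, hb⟩ := hD (max N L)
    have hbad : IsMeagre (((PiNat.cylinder q N \ {x | G a (F x) = x}) ∪
        flipBit b ⁻¹' (PiNat.cylinder q N \ {x | G a (F x) = x})) ∪
        ⋃ k, PiNat.cylinder z L ∩ {x | F x k ≠ F (flipBit b x) k}) :=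
      (hq.union (hq.preimage_of_isOpenMap (continuous_flipBit b) (isOpenMap_flipBit b))).union
        (isMeagre_iUnion fun k => hcase b hbD (by omega) k)
    obtain ⟨x, hx, hxn⟩ := (dense_of_mem_residual hbad).inter_open_nonempty (PiNat.cylinder q N)
      (PiNat.isOpen_cylinder _ _ _) ⟨q, PiNat.self_mem_cylinder _ _⟩
    simp only [mem_compl_iff, mem_union, mem_iUnion, mem_preimage, Set.mem_sdiff, mem_inter_iff,
      mem_setOf_eq, not_or, not_and, not_not, not_exists] at hxn
    obtain ⟨⟨h1, h2⟩, h3⟩ := hxn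
    have hfx : flipBit b x ∈ PiNat.cylinder q N := by
      rw [PiNat.mem_cylinder_iff] at hx ⊢
      intro i hi
      simp [flipBit, show i ≠ b by omega, hx i hi]
    have hFeq : F x = F (flipBit b x) := funext fun k => by simpa using h3 k (hqC hx)
    have hxx : x = flipBit b x := by
      rw [← h2 hfx, ← hFeq, h1 hx]
    have := congrFun hxx b
    simp [flipBit] at this

end Vale.Agent.P327
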