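import Vale.Agent.P327.Oracle

/-!
P327: finite-extension construction of two sequences of reals `G`, `D` such that the selection
along `Y` computes `G i` only when `Y i` holds.
-/

namespace Vale.Agent.P327

/-- Select, column by column, one of two given reals. -/
def sel (G D : ℕ → Cantor) (Y : Cantor) : Cantor :=
  bigJoin fun i => if Y i then G i else D i

namespace Coding

/-- A condition: finite initial segments of all `G j` and `D j`, equal from column `N` on. -/
structure St where
  /-- the columns from `N` on are not yet split -/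
  N : ℕ
  /-- segments of the first sequence -/
  g : ℕ → List Bool
  /-- segments of the second sequence -/
  d : ℕ → List Bool
  eq : ∀ j, N ≤ j → g j = d j

/-- The reals extend the condition. -/
def Cons (s : St) (G D : ℕ → Cantor) : Prop :=
  ∀ j, pre (G j) (s.g j).length = s.g j ∧ pre (D j) (s.d j).length = s.d j

/-- Extension of conditions. -/
def Ext (s s' : St) : Prop :=
  s.N ≤ s'.N ∧ ∀ j, s.g j <+: s'.g j ∧ s.d j <+: s'.d j

lemma Ext.refl (s : St) : Ext s s :=
  ⟨le_rfl, fun _ => ⟨List.prefix_refl _, List.prefix_refl _⟩⟩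

lemma Ext.trans {a b c : St} (h : Ext a b) (h' : Ext b c) : Ext a c :=
  ⟨h.1.trans h'.1, fun j => ⟨(h.2 j).1.trans (h'.2 j).1, (h.2 j).2.trans (h'.2 j).2⟩⟩

lemma pre_length (X : Cantor) (m : ℕ) : (pre X m).length = m := by simp [pre]

lemma pre_eq_of_prefix {X : Cantor} {l l' : List Bool} (hl : l <+: l')
    (h : pre X l'.length = l') : pre X l.length = l := by
  have h1 := List.prefix_iff_eq_take.1 hl
  have hle := hl.length_le
  rw [← h] at h1
  refine Eq.trans ?_ h1.symm
  simp only [pre, ← List.map_take, List.take_range, Nat.min_eq_left hle]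

lemma pre_prefix (X : Cantor) {a b : ℕ} (h : a ≤ b) : pre X a <+: pre X b := by
  rw [List.prefix_iff_eq_take, pre_length]
  simp only [pre, ← List.map_take, List.take_range, Nat.min_eq_left h]

lemma pre_congr {X Y : Cantor} {m : ℕ} (h : ∀ n < m, X n = Y n) : pre X m = pre Y m :=
  List.map_congr_left fun n hn => h n (List.mem_range.1 hn)

lemma eq_of_pre {X : Cantor} {l : List Bool} (h : pre X l.length = l) {Y : Cantor} {m : ℕ}
    (hl : l = pre Y m) {n : ℕ} (hn : n < m) : X n = Y n := by
  subst hl
  rw [pre_length] at h
  exact (List.map_inj_left.1 h) n (List.mem_range.2 hn)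

lemma Ext.cons {s s' : St} (h : Ext s s') {G D : ℕ → Cantor} (hc : Cons s' G D) : Cons s G D :=
  fun j => ⟨pre_eq_of_prefix (h.2 j).1 (hc j).1, pre_eq_of_prefix (h.2 j).2 (hc j).2⟩

/-- The requirement for the code `f`, the column `i` and the pattern `σ`. -/
def Forced (f : Code) (i : ℕ) (N : ℕ) (σ : ℕ → Bool) (s : St) : Prop :=
  ∀ (G D : ℕ → Cantor) (Y : Cantor), Cons s G D → (∀ j < N, Y j = σ j) →
    ¬ Computes f (sel G D Y) (G i)

lemma step_pattern (f : Code) (s : St) {i : ℕ} (hi : i < s.N) (σ : ℕ → Bool) (hσ : σ i = false) :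
    ∃ s', Ext s s' ∧ s'.N = s.N ∧ Forced f i s.N σ s' := by
  classical
  set sl : ℕ → List Bool := fun j => if σ j then s.g j else s.d j with hsl
  set k := (s.g i).length with hk
  set col : Cantor → ℕ → Cantor := fun z j t => z (Nat.pair j t) with hcol
  by_cases h : ∃ (z : Cantor) (m : ℕ) (v : Bool),
      (∀ j, pre (col z j) (sl j).length = sl j) ∧ f.1 (pre z m) k = some v
  · obtain ⟨z, m, v, hz, hv⟩ := h
    set E : ℕ → List Bool := fun j => pre (col z j) (max (sl j).length m) with hE
    have hslE : ∀ j, sl j <+: E j := fun j => by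
      have := pre_prefix (col z j) (le_max_left (sl j).length m)
      rwa [hz j] at this
    refine ⟨⟨s.N,
      fun j => if s.N ≤ j ∨ σ j = true then E j else if j = i then s.g j ++ [!v] else s.g j,
      fun j => if s.N ≤ j ∨ σ j = false then E j else s.d j, ?_⟩, ⟨le_rfl, fun j => ?_⟩, rfl, ?_⟩
    · intro j hj; simp [hj]
    · have hE' := hslE j
      simp only [hsl] at hE'
      dsimp only
      by_cases hj : s.N ≤ j
      · simp only [hj, true_or, if_true]
        cases hs : σ j <;> simp only [hs, Bool.false_eq_true, if_false, if_true] at hE'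
        · exact ⟨(s.eq j hj).symm ▸ hE', hE'⟩
        · exact ⟨hE', s.eq j hj ▸ hE'⟩
      · cases hs : σ j <;> simp only [hs, Bool.false_eq_true, if_false, if_true] at hE'
        · simp only [hj, false_or, Bool.false_eq_true, if_false, if_true]
          refine ⟨?_, hE'⟩
          split_ifs with hji
          · exact List.prefix_append _ _
          · exact List.prefix_refl _
        · simp only [hj, false_or, Bool.true_eq_false, if_false, if_true]
          exact ⟨hE', List.prefix_refl _⟩
    · intro G D Y hc hY hcomp
      have hsel : ∀ n < m, sel G D Y n = z n := by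
        intro n hn
        have ht : n.unpair.2 < max (sl n.unpair.1).length m :=
          lt_of_lt_of_le ((Nat.unpair_right_le n).trans_lt hn) (le_max_right _ _)
        have key : ∀ X : Cantor, pre X (E n.unpair.1).length = E n.unpair.1 → X n.unpair.2 = z n :=
          fun X hX => by
            have := eq_of_pre hX rfl ht
            simpa [hcol, Nat.pair_unpair] using this
        obtain ⟨hg, hd⟩ := hc n.unpair.1
        simp only at hg hd
        simp only [sel, bigJoin]
        by_cases hj : s.N ≤ n.unpair.1
        · simp only [hj, true_or, if_true] at hg hd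
          cases Y n.unpair.1
          · simpa using key _ hd
          · simpa using key _ hg
        · have hy := hY _ (Nat.lt_of_not_le hj)
          cases hs : σ n.unpair.1 <;> rw [hs] at hy <;> simp only [hy, Bool.false_eq_true, if_false,
            if_true]
          · simp only [hs, or_true, if_true] at hd; exact key _ hd
          · simp only [hs, or_true, if_true] at hg; exact key _ hg
      have hg := (hc i).1
      simp only [Nat.not_le.2 hi, hσ, Bool.false_eq_true, or_self, if_false, if_true,
        List.length_append, List.length_singleton] at hg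
      have hGk : G i k = !v := by
        have h1 : (pre (G i) (k + 1))[k]? = (s.g i ++ [!v])[k]? := by rw [hk, hg]
        simpa [pre, hk] using h1
      have := (hcomp k).2 m v (by rw [pre_congr hsel]; exact hv)
      rw [hGk] at this
      cases v <;> simp at this
  · refine ⟨s, Ext.refl s, rfl, fun G D Y hc hY hcomp => h ?_⟩
    obtain ⟨m, hm⟩ := (hcomp k).1
    refine ⟨sel G D Y, m, G i k, fun j => ?_, hm⟩
    have hcolj : col (sel G D Y) j = if Y j then G j else D j := by
      funext t; simp [hcol, sel, bigJoin]
    rw [hcolj]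
    obtain ⟨hg, hd⟩ := hc j
    simp only [hsl]
    by_cases hj : j < s.N
    · rw [hY j hj]; cases σ j <;> simp [hg, hd]
    · have := s.eq j (Nat.le_of_not_lt hj)
      cases Y j <;> cases σ j <;> simp [hg, hd, this] <;> simp_all

/-- The requirement for the code `f` and the column `i`. -/
def Blocked (f : Code) (i : ℕ) (s : St) : Prop :=
  ∀ (G D : ℕ → Cantor) (Y : Cantor), Cons s G D → Y i = false → ¬ Computes f (sel G D Y) (G i)

lemma step (f : Code) (i : ℕ) (s : St) : ∃ s', Ext s s' ∧ Blocked f i s' := by
  classical
  set N := max s.N (i + 1) with hN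
  set s₀ : St := ⟨N, s.g, s.d, fun j hj => s.eq j (le_trans (le_max_left _ _) hj)⟩ with hs₀
  have h0 : Ext s s₀ :=
    ⟨le_max_left _ _, fun _ => ⟨List.prefix_refl _, List.prefix_refl _⟩⟩
  have hi : i < N := lt_of_lt_of_le (Nat.lt_succ_self i) (le_max_right _ _)
  let extp : (Fin N → Bool) → ℕ → Bool := fun p j => if hj : j < N then p ⟨j, hj⟩ else false
  have hall : ∀ P : Finset (Fin N → Bool), ∃ s', Ext s₀ s' ∧ s'.N = N ∧
      ∀ p ∈ P, p ⟨i, hi⟩ = false → Forced f i N (extp p) s' := by
    intro P
    induction P using Finset.induction_on with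
    | empty => exact ⟨s₀, Ext.refl _, rfl, fun p hp => absurd hp (Finset.notMem_empty p)⟩
    | insert p P _ ih =>
      obtain ⟨s₁, h1, h1N, hP⟩ := ih
      by_cases hp : p ⟨i, hi⟩ = false
      · obtain ⟨s₂, h2, h2N, hf⟩ := step_pattern f s₁ (h1N.symm ▸ hi) (extp p)
          (by simp only [extp, hi, dif_pos, hp])
        rw [h1N] at hf
        refine ⟨s₂, h1.trans h2, h2N.trans h1N, fun q hq hqi => ?_⟩
        rcases Finset.mem_insert.1 hq with rfl | hq
        · exact hf
        · exact fun G D Y hc hY => hP q hq hqi G D Y (h2.cons hc) hY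
      · refine ⟨s₁, h1, h1N, fun q hq hqi => ?_⟩
        rcases Finset.mem_insert.1 hq with rfl | hq
        · exact absurd hqi hp
        · exact hP q hq hqi
  obtain ⟨s', h', -, hf⟩ := hall Finset.univ
  refine ⟨s', h0.trans h', fun G D Y hc hYi => ?_⟩
  exact hf (fun j => Y j) (Finset.mem_univ _) hYi G D Y hc fun j hj => by simp [extp, hj]

/-- The empty condition. -/
def St.init : St := ⟨0, fun _ => [], fun _ => [], fun _ _ => rfl⟩

/-- The limit of a chain of finite segments. -/
noncomputable def limit (l : ℕ → List Bool) : Cantor := fun k =>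
  haveI := Classical.propDecidable (∃ n, k < (l n).length)
  if h : ∃ n, k < (l n).length then (l (Nat.find h))[k]'(Nat.find_spec h) else false

lemma pre_limit {l : ℕ → List Bool} (h : ∀ n, l n <+: l (n + 1)) (n : ℕ) :
    pre (limit l) (l n).length = l n := by
  classical
  have hmono : ∀ {a b}, a ≤ b → l a <+: l b := fun {a b} hab => by
    induction b, hab using Nat.le_induction with
    | base => exact List.prefix_refl _
    | succ b _ ih => exact ih.trans (h b)
  refine List.ext_getElem (by simp [pre]) fun k h1 h2 => ?_
  have hex : ∃ n, k < (l n).length := ⟨n, h2⟩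
  simp only [pre, List.getElem_map, List.getElem_range, limit, dif_pos hex]
  exact (hmono (Nat.find_min' hex h2)).getElem (Nat.find_spec hex)

/-- The generic pair of sequences. -/
lemma exists_blocked : ∃ G D : ℕ → Cantor, ∀ (f : Code) (i : ℕ) (Y : Cantor), Y i = false →
    ¬ Computes f (sel G D Y) (G i) := by
  classical
  obtain ⟨e, he⟩ := exists_surjective_nat (Code × ℕ)
  choose nxt hext hblk using fun (n : ℕ) (s : St) => step (e n).1 (e n).2 s
  let st : ℕ → St := fun n => Nat.rec St.init nxt n
  have hst : ∀ n, Ext (st n) (st (n + 1)) := fun n => hext n (st n)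
  refine ⟨fun j => limit fun n => (st n).g j, fun j => limit fun n => (st n).d j,
    fun f i Y hY => ?_⟩
  obtain ⟨n, hn⟩ := he (f, i)
  have hb := hblk n (st n)
  rw [hn] at hb
  exact hb _ _ Y (fun j => ⟨pre_limit (l := fun m => (st m).g j) (fun m => ((hst m).2 j).1) (n + 1),
    pre_limit (l := fun m => (st m).d j) (fun m => ((hst m).2 j).2) (n + 1)⟩) hY

end Coding

end Vale.Agent.P327
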