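import Vale.Agent.P327.Oracle
import Vale.Agent.P327.Borel
import Vale.Agent.P327.CodingStep

/-!
P327: countably many Borel functions list every representative of every image under an
automorphism of the Turing degrees.
-/

namespace Vale.Agent.P327

theorem exists_coding : ∃ G D : ℕ → Cantor, ∀ Y i, TLE (G i) (sel G D Y) ↔ Y i = true := by
  obtain ⟨G, D, h⟩ := Coding.exists_blocked
  refine ⟨G, D, fun Y i => ⟨fun ⟨f, hf⟩ => ?_, fun hY => ?_⟩⟩
  · by_contra hY
    exact h f i Y (by simpa using hY) hf
  · have := tle_bigJoin (fun j => if Y j then G j else D j) i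
    simpa [sel, hY] using this

/-- Reads the bit `n` of the selection from a prefix of the triple join. -/
def selApprox (l : List Bool) (n : ℕ) : Option Bool :=
  (l[2 * n.unpair.1]?).bind fun y => bif y then l[4 * n + 1]? else l[4 * n + 3]?

theorem computable_selApprox : Computable₂ selApprox := by
  have h1 : Computable fun p : (List Bool × ℕ) × Bool => p.1.1[4 * p.1.2 + 1]? :=
    Computable.list_getElem?.comp (Computable.fst.comp Computable.fst)
      (((Primrec.nat_add.comp ((Primrec.nat_mul.comp (Primrec.const 4)
        (Primrec.snd.comp Primrec.fst))) (Primrec.const 1))).to_comp)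
  have h2 : Computable fun p : (List Bool × ℕ) × Bool => p.1.1[4 * p.1.2 + 3]? :=
    Computable.list_getElem?.comp (Computable.fst.comp Computable.fst)
      (((Primrec.nat_add.comp ((Primrec.nat_mul.comp (Primrec.const 4)
        (Primrec.snd.comp Primrec.fst))) (Primrec.const 3))).to_comp)
  have h3 : Computable fun p : List Bool × ℕ => p.1[2 * p.2.unpair.1]? :=
    Computable.list_getElem?.comp Computable.fst
      ((Primrec.nat_mul.comp (Primrec.const 2)
        (Primrec.fst.comp (Primrec.unpair.comp Primrec.snd))).to_comp)
  exact (Computable.option_bind h3 (Computable.cond Computable.snd h1 h2).to₂).to₂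

theorem sel_tle (G D : ℕ → Cantor) (Y : Cantor) :
    TLE (sel G D Y) (join Y (join (bigJoin G) (bigJoin D))) := by
  set X := join Y (join (bigJoin G) (bigJoin D)) with hX
  have hg : ∀ m n, (pre X m)[n]? = if n < m then some (X n) else none := fun m n => by
    split_ifs with h <;> simp [pre, h]
  have e0 : ∀ j, X (2 * j) = Y j := fun j => by simp [hX, join]
  have e1 : ∀ n, X (4 * n + 1) = bigJoin G n := fun n => by
    simp only [hX, join, show ¬ (4 * n + 1) % 2 = 0 by omega, if_false,
      show (4 * n + 1) / 2 = 2 * n by omega]
    simp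
  have e2 : ∀ n, X (4 * n + 3) = bigJoin D n := fun n => by
    simp only [hX, join, show ¬ (4 * n + 3) % 2 = 0 by omega, if_false,
      show (4 * n + 3) / 2 = 2 * n + 1 by omega]
    simp [show ¬ (2 * n + 1) % 2 = 0 by omega, show (2 * n + 1) / 2 = n by omega]
  refine tle_of_approx selApprox computable_selApprox fun n => ⟨⟨4 * n + 4, ?_⟩, fun m v hv => ?_⟩
  · show selApprox (pre X (4 * n + 4)) n = _
    have := Nat.unpair_left_le n
    simp only [selApprox, hg, show 2 * n.unpair.1 < 4 * n + 4 by omega,
      show 4 * n + 1 < 4 * n + 4 by omega, show 4 * n + 3 < 4 * n + 4 by omega, if_true,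
      Option.bind_some, e0, e1, e2, sel, bigJoin]
    cases Y n.unpair.1 <;> simp
  · change selApprox (pre X m) n = some v at hv
    simp only [selApprox, hg, Option.bind_eq_some_iff] at hv
    obtain ⟨y, hy, hv⟩ := hv
    split_ifs at hy
    simp only [Option.some.injEq, e0] at hy
    subst hy
    simp only [sel, bigJoin]
    cases hY : Y n.unpair.1 <;>
      simp only [hY, cond_true, cond_false, Option.ite_none_right_eq_some, Option.some.injEq, e1,
        e2, bigJoin] at hv <;> simp [hv.2]

/-- A total measurable decoder for one code. -/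
noncomputable def decode (f : Code) (X : Cantor) : Cantor := fun n =>
  haveI := Classical.propDecidable (∃ m, f.1 (pre X m) n = some true)
  decide (∃ m, f.1 (pre X m) n = some true)

theorem decode_eq {f : Code} {X W : Cantor} (h : Computes f X W) : decode f X = W := by
  funext n
  obtain ⟨⟨m, hm⟩, hs⟩ := h n
  simp only [decode]
  cases hW : W n
  · simp only [decide_eq_false_iff_not, not_exists]
    intro m' hm'
    simpa [hW] using hs m' true hm'
  · simp only [decide_eq_true_eq]
    exact ⟨m, hW ▸ hm⟩

theorem measurable_decode (f : Code) : Measurable (decode f) := by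
  refine measurable_of_bits fun n => ?_
  have : {X | decode f X n = true} = ⋃ m, (fun (X : Cantor) (i : Fin m) => X i) ⁻¹'
      {v | f.1 (List.ofFn v) n = some true} := by
    ext X
    have hpre : ∀ m, List.ofFn (fun i : Fin m => X i) = pre X m := fun m =>
      List.ext_getElem (by simp [pre]) fun k h1 h2 => by simp [pre]
    simp [decode, hpre]
  rw [this]
  exact MeasurableSet.iUnion fun m =>
    (measurable_pi_lambda _ fun i => measurable_pi_apply _) (Set.toFinite _).measurableSet

/-- Countably many Borel functions list every representative of every image. -/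
theorem exists_candidates (π : Auto) : ∃ F : ℕ → Cantor → Cantor, (∀ a, Measurable (F a)) ∧
    ∀ X Y, TEq Y (π.f X) → ∃ a, F a X = Y := by
  classical
  obtain ⟨G, D, hGD⟩ := exists_coding
  obtain ⟨cd, hcd⟩ := exists_surjective_nat Code
  set c₀ := join (bigJoin G) (bigJoin D) with hc₀
  set c := π.g c₀ with hc
  refine ⟨fun a X i => decide (TLE (π.g (G i)) (decode (cd a) (join X c))), fun a => ?_,
    fun X Y hY => ?_⟩
  · refine measurable_of_bits fun i => ?_
    simp only [decide_eq_true_eq]
    exact measurableSet_tle ((measurable_decode (cd a)).comp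
      (measurable_join.comp (measurable_id.prodMk measurable_const))) measurable_const
  · have hgY : TLE (π.g Y) X :=
      ((π.gmono Y (π.f X)).2 hY.1).trans (π.gf X).1
    have h1 : TLE (π.g (sel G D Y)) (join X c) :=
      (((π.gmono _ _).2 (sel_tle G D Y)).trans (π.symm.map_join Y c₀).1).trans
        (join_tle (hgY.trans (tle_join_left X c)) (tle_join_right X c))
    obtain ⟨f, hf⟩ := h1
    obtain ⟨a, rfl⟩ := hcd f
    refine ⟨a, funext fun i => ?_⟩
    simp only [decode_eq hf]
    have h2 := (π.gmono (G i) (sel G D Y)).trans (hGD Y i)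
    cases hYi : Y i <;> simpa [hYi] using h2

end Vale.Agent.P327
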