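import Vale.Agent.P327.Elim

/-!
P327: shared lemmas for the two stages.
-/

namespace Vale.Agent.P327

open Topology Filter Set

theorem tle_of_eq {X Y : Cantor} (h : X = Y) : TLE X Y := h ▸ TLE.refl X

theorem join_mono {X X' Y Y' : Cantor} (h : TLE X X') (h' : TLE Y Y') :
    TLE (join X Y) (join X' Y') :=
  join_tle (h.trans (tle_join_left _ _)) (h'.trans (tle_join_right _ _))

theorem hcol_eq {r : Cantor} {i h : ℕ} (h1 : ∀ j < h, r (Nat.pair i j) = true)
    (h2 : r (Nat.pair i h) = false) : hcol r i = h := by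
  have hex : ∃ j, r (Nat.pair i j) = false := ⟨h, h2⟩
  simp only [hcol, dif_pos hex]
  rw [Nat.find_eq_iff]
  exact ⟨h2, fun j hj => by simp [h1 j hj]⟩

/-- Extend the first `M` bits of `w` by `false`. -/
def padFalse (w : Cantor) (M : ℕ) : Cantor := fun n => if n < M then w n else false

theorem padFalse_mem (w : Cantor) (M : ℕ) : padFalse w M ∈ PiNat.cylinder w M := by
  rw [PiNat.mem_cylinder_iff]
  intro i hi
  simp [padFalse, hi]

theorem valid_padFalse (w : Cantor) (M : ℕ) : Valid (padFalse w M) := by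
  intro i
  refine ⟨M, ?_⟩
  have := Nat.right_le_pair i M
  simp [padFalse, show ¬ Nat.pair i M < M by omega]

theorem hcol_padFalse (w : Cantor) {M i : ℕ} (hi : M ≤ i) : hcol (padFalse w M) i = 0 := by
  refine hcol_eq (fun j hj => absurd hj (Nat.not_lt_zero j)) ?_
  have := Nat.left_le_pair i 0
  simp [padFalse, show ¬ Nat.pair i 0 < M by omega]

theorem valid_setCol {y : Cantor} (hy : Valid y) (i h : ℕ) : Valid (setCol y i h) := by
  intro k
  by_cases hk : k = i
  · exact ⟨h, by simp [setCol, hk]⟩
  · obtain ⟨j, hj⟩ := hy k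
    exact ⟨j, by simp [setCol, hk, hj]⟩

theorem setCol_mem {y w : Cantor} {M i : ℕ} (hi : M ≤ i) (h : ℕ) (hy : y ∈ PiNat.cylinder w M) :
    setCol y i h ∈ PiNat.cylinder w M := by
  rw [PiNat.mem_cylinder_iff] at hy ⊢
  intro n hn
  have : n.unpair.1 ≠ i := by have := Nat.unpair_left_le n; omega
  simp [setCol, this, hy n hn]

/-- Finitely many column values of a valid real are decided on a cylinder. -/
theorem exists_hcol_cylinder {r : Cantor} (hr : Valid r) (K M : ℕ) :
    ∃ L, M ≤ L ∧ ∀ r' ∈ PiNat.cylinder r L, ∀ i < K, hcol r' i = hcol r i := by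
  classical
  refine ⟨max M ((Finset.range K).sup (fun i => Nat.pair i (hcol r i) + 1)), le_max_left _ _,
    fun r' hr' i hi => ?_⟩
  rw [PiNat.mem_cylinder_iff] at hr'
  have hb : Nat.pair i (hcol r i) + 1 ≤ max M ((Finset.range K).sup
      (fun i => Nat.pair i (hcol r i) + 1)) :=
    le_trans (Finset.le_sup (f := fun i => Nat.pair i (hcol r i) + 1) (Finset.mem_range.2 hi))
      (le_max_right _ _)
  have hspec : ∀ j ≤ hcol r i, r' (Nat.pair i j) = r (Nat.pair i j) := by
    intro j hj
    refine hr' _ ?_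
    rcases hj.lt_or_eq with hj | hj
    · have := Nat.pair_lt_pair_right i hj
      omega
    · subst hj; omega
  have hfind : r (Nat.pair i (hcol r i)) = false ∧
      ∀ j < hcol r i, r (Nat.pair i j) = true := by
    simp only [hcol, dif_pos (hr i)]
    refine ⟨Nat.find_spec (hr i), fun j hj => ?_⟩
    simpa using Nat.find_min (hr i) hj
  refine hcol_eq (fun j hj => ?_) ?_
  · rw [hspec j hj.le]; exact hfind.2 j hj
  · rw [hspec _ le_rfl]; exact hfind.1

theorem gam_injective (h : ℕ) : Function.Injective (gam h) :=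
  Function.LeftInverse.injective (gamInv_gam h)

theorem gamInv_injective (h : ℕ) : Function.Injective (gamInv h) :=
  Function.LeftInverse.injective (gam_gamInv h)

theorem rowPerm_injective (p : ℕ → ℕ → ℕ) (hp : ∀ i, Function.Injective (p i)) :
    Function.Injective fun n : ℕ => Nat.pair n.unpair.1 (p n.unpair.1 n.unpair.2) := by
  intro a b hab
  obtain ⟨h1, h2⟩ := Nat.pair_eq_pair.1 hab
  rw [← h1] at h2
  have h3 := hp _ h2
  rw [← Nat.pair_unpair a, ← Nat.pair_unpair b, h1, h3]

theorem continuous_rowAct (r : Cantor) : Continuous (rowAct r) := continuous_reindex _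

theorem isOpenMap_rowAct (r : Cantor) : IsOpenMap (rowAct r) :=
  isOpenMap_reindex (rowPerm_injective _ fun _ => gam_injective _)

theorem continuous_rowActInv (r : Cantor) : Continuous (rowActInv r) := continuous_reindex _

theorem isOpenMap_rowActInv (r : Cantor) : IsOpenMap (rowActInv r) :=
  isOpenMap_reindex (rowPerm_injective _ fun _ => gamInv_injective _)

theorem continuous_flipAct (s : ℕ) (y : Cantor) : Continuous (flipAct s y) := by
  refine continuous_pi fun n => ?_
  unfold flipAct
  by_cases h : n % 2 = s ∧ hcol y n ≠ 0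
  · simp only [if_pos h]
    exact Continuous.comp (g := fun p : Bool × Bool => Bool.xor p.1 p.2)
      (f := fun x : Cantor => (x n, x (2 * (hcol y n - 1) + (1 - s))))
      continuous_of_discreteTopology ((continuous_apply _).prodMk (continuous_apply _))
  · simp only [if_neg h]
    exact continuous_apply _

theorem isOpenMap_flipAct {s : ℕ} (hs : s < 2) (y : Cantor) : IsOpenMap (flipAct s y) := by
  intro U hU
  rw [show flipAct s y '' U = flipAct s y ⁻¹' U from
    congrFun (Set.image_eq_preimage_of_inverse (flipAct_flipAct hs y) (flipAct_flipAct hs y)) U]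
  exact hU.preimage (continuous_flipAct s y)

/-- The open set of reals agreeing with `p` on the positions below `N` other than `b`. -/
def punctured (p : Cantor) (N b : ℕ) : Set Cantor := {x | ∀ i < N, i ≠ b → x i = p i}

theorem punctured_subset {p z : Cantor} {N b L : ℕ} (hp : p ∈ PiNat.cylinder z L) (hLb : L ≤ b)
    (hbN : b < N) : punctured p N b ⊆ PiNat.cylinder z L := by
  intro x hx
  rw [PiNat.mem_cylinder_iff] at hp ⊢
  intro i hi
  rw [hx i (by omega) (by omega), hp i hi]

theorem isOpen_punctured (p : Cantor) (N b : ℕ) : IsOpen (punctured p N b) := by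
  have : punctured p N b = ((Finset.range N).erase b : Set ℕ).pi fun i => {p i} := by
    ext x
    simp [punctured, Set.mem_pi, and_comm]
    tauto
  rw [this]
  exact isOpen_set_pi (Finset.finite_toSet _) fun _ _ => isOpen_discrete _

theorem isOpenMap_setCol (i h : ℕ) : IsOpenMap fun y : Cantor => setCol y i h := by
  classical
  intro U hU
  rw [isOpen_iff_mem_nhds]
  rintro _ ⟨y, hy, rfl⟩
  obtain ⟨_, ⟨z, N, rfl⟩, hyN, hNU⟩ :=
    (PiNat.isTopologicalBasis_cylinders (fun _ : ℕ => Bool)).exists_subset_of_mem_open hy hU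
  refine mem_of_superset ((PiNat.isOpen_cylinder _ (setCol y i h) (max N (Nat.pair i h + 1))).mem_nhds
    (PiNat.self_mem_cylinder _ _)) ?_
  intro y' hy'
  rw [PiNat.mem_cylinder_iff] at hy' hyN
  refine ⟨fun n => if n.unpair.1 = i ∧ n.unpair.2 ≤ h then y n else y' n, hNU ?_, ?_⟩
  · rw [PiNat.mem_cylinder_iff]
    intro n hn
    show (if n.unpair.1 = i ∧ n.unpair.2 ≤ h then y n else y' n) = z n
    split_ifs with hc
    · exact hyN n hn
    · rw [hy' n (by omega), ← hyN n hn]
      simp [setCol, hc]
  · funext n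
    by_cases hc : n.unpair.1 = i ∧ n.unpair.2 ≤ h
    · have hn : n ≤ Nat.pair i h := by
        rcases hc.2.lt_or_eq with hlt | heq
        · have := Nat.pair_lt_pair_right i hlt
          rw [← Nat.pair_unpair n, hc.1]; omega
        · rw [← Nat.pair_unpair n, hc.1, heq]
      rw [hy' n (by omega)]
      simp [setCol, hc]
    · simp [setCol, hc]

theorem continuous_setCol (i h : ℕ) : Continuous fun y : Cantor => setCol y i h := by
  refine continuous_pi fun n => ?_
  unfold setCol
  by_cases hc : n.unpair.1 = i ∧ n.unpair.2 ≤ h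
  · simp only [if_pos hc]
    exact continuous_const
  · simp only [if_neg hc]
    exact continuous_apply _

/-- Representatives used by both stages: `f x` is literally a value of a candidate, and `x` is
recovered from `f x` by a candidate of the inverse. -/
theorem Auto.exists_data (π : Auto) : ∃ F G : ℕ → Cantor → Cantor,
    (∀ a, Measurable (F a)) ∧ (∀ a, Measurable (G a)) ∧ (∀ X, ∃ a, F a X = π.f X) ∧
    (∀ Y, ∃ a, G a Y = π.g Y) ∧ ∀ X, ∃ a, G a (π.f X) = X := by
  obtain ⟨F, hF, hF'⟩ := exists_candidates π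
  obtain ⟨G, hG, hG'⟩ := exists_candidates π.symm
  exact ⟨F, G, hF, hG, fun X => hF' X _ (TEq.refl _), fun Y => hG' Y _ (TEq.refl _),
    fun X => hG' _ X (π.gf X).symm⟩

theorem Auto.f_join_tle (π : Auto) (X Y : Cantor) :
    TLE (π.f (join X Y)) (join (π.f X) (π.f Y)) :=
  (π.map_join X Y).1

theorem Auto.join_f_tle (π : Auto) (X Y : Cantor) :
    TLE (join (π.f X) (π.f Y)) (π.f (join X Y)) :=
  (π.map_join X Y).2

theorem Auto.g_tle_of_tle_f (π : Auto) {X Y : Cantor} (h : TLE X (π.f Y)) : TLE (π.g X) Y :=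
  ((π.gmono _ _).2 h).trans (π.gf Y).1

end Vale.Agent.P327
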