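import Vale.Agent.P327.Oracle

/-!
P327: from automorphisms on representatives to automorphisms of the order of the degrees of sets.
-/

namespace Vale.Agent.P327

open scoped Classical

/-- If every automorphism on representatives fixes every degree, the order of the degrees of
characteristic functions is rigid. -/
theorem orderIso_eq_refl_of_auto (h : ∀ π : Auto, ∀ X, TEq (π.f X) X)
    (π : {d : TuringDegree // ∃ A : Set ℕ,
        d = toAntisymmetrization TuringReducible (fun n => Part.some (if n ∈ A then 1 else 0))} ≃o
      {d : TuringDegree // ∃ A : Set ℕ,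
        d = toAntisymmetrization TuringReducible (fun n => Part.some (if n ∈ A then 1 else 0))}) :
    π = OrderIso.refl _ := by
  let D := {d : TuringDegree // ∃ A : Set ℕ,
    d = toAntisymmetrization TuringReducible (fun n => Part.some (if n ∈ A then 1 else 0))}
  have hchi : ∀ (X : Cantor) (A : Set ℕ), (∀ n, n ∈ A ↔ X n = true) →
      chiB X = fun n => Part.some (if n ∈ A then 1 else 0) := fun X A hA => by
    funext n
    cases hX : X n
    · rw [if_neg (by simp [hA, hX])]; simp [chiB, hX]
    · rw [if_pos (by simp [hA, hX])]; simp [chiB, hX]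
  let deg : Cantor → D := fun X =>
    ⟨toAntisymmetrization TuringReducible (chiB X), {m | X m = true},
      congrArg _ (hchi X _ fun _ => Iff.rfl)⟩
  have hle : ∀ X Y, deg X ≤ deg Y ↔ TLE X Y := fun X Y => tle_iff_turingReducible.symm
  have hsurj : ∀ d : D, ∃ X : Cantor, deg X = d := by
    rintro ⟨d, A, rfl⟩
    refine ⟨fun n => decide (n ∈ A), Subtype.ext ?_⟩
    show toAntisymmetrization _ _ = _
    exact congrArg _ (hchi _ A fun n => by simp)
  choose rep hrep using hsurj
  have heq : ∀ {X Y}, TEq X Y ↔ deg X = deg Y := fun {X Y} =>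
    ⟨fun e => le_antisymm ((hle X Y).2 e.1) ((hle Y X).2 e.2),
      fun e => ⟨(hle X Y).1 e.le, (hle Y X).1 e.ge⟩⟩
  let φ : Auto :=
    { f := fun X => rep (π (deg X))
      g := fun X => rep (π.symm (deg X))
      fmono := fun X Y => by rw [← hle, hrep, hrep, OrderIso.le_iff_le, hle]
      gmono := fun X Y => by rw [← hle, hrep, hrep, OrderIso.le_iff_le, hle]
      fg := fun X => heq.2 (by rw [hrep, hrep, OrderIso.apply_symm_apply])
      gf := fun X => heq.2 (by rw [hrep, hrep, OrderIso.symm_apply_apply]) }
  refine OrderIso.ext (funext fun d => ?_)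
  have := heq.1 (h φ (rep d))
  simp only [φ, hrep] at this
  exact this

end Vale.Agent.P327
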