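import Vale.Agent.P327.Oracle

/-!
P327: composing and iterating approximation functionals.
-/

namespace Vale.Agent.P327

/-- The longest initial segment below `n` on which `g` is defined. -/
def gather (g : ℕ → Option Bool) : ℕ → List Bool
  | 0 => []
  | n + 1 => bif decide ((gather g n).length = n) then
      ((g n).casesOn (gather g n) fun v => gather g n ++ [v]) else gather g n

/-- The value of an approximation on a finite string and all its initial segments. -/
def evalCode (d : List Bool → ℕ → Option Bool) (J : List Bool) (n : ℕ) : Option Bool :=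
  firstSome (fun i => d (J.take i) n) (J.length + 1)

theorem computable_gather {α : Type*} [Primcodable α] {g : α → ℕ → Option Bool}
    (hg : Computable₂ g) {b : α → ℕ} (hb : Computable b) :
    Computable fun a => gather (g a) (b a) := by
  have step : Computable₂ fun (a : α) (p : ℕ × List Bool) =>
      (bif decide (p.2.length = p.1) then
        ((g a p.1).casesOn p.2 fun v => p.2 ++ [v]) else p.2 : List Bool) := by
    have hd : Computable fun q : α × (ℕ × List Bool) => decide (q.2.2.length = q.2.1) :=
      (Primrec.eq.comp (Primrec.list_length.comp (Primrec.snd.comp Primrec.snd))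
        (Primrec.fst.comp Primrec.snd)).decide.to_comp.comp (Computable.id)
    exact (Computable.cond hd (Computable.option_casesOn
      (hg.comp Computable.fst (Computable.fst.comp Computable.snd))
      (Computable.snd.comp Computable.snd)
      (Computable.list_concat.comp (Computable.snd.comp (Computable.snd.comp Computable.fst))
        Computable.snd).to₂) (Computable.snd.comp Computable.snd)).to₂
  refine (Computable.nat_rec hb (Computable.const []) step).of_eq fun a => ?_
  induction b a with
  | zero => rfl
  | succ n ih => simp only [gather, ← ih]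

theorem computable_evalCode (d : Code) : Computable₂ (evalCode d.1) := by
  refine (computable_firstSome (g := fun (p : List Bool × ℕ) i => d.1 (p.1.take i) p.2) ?_
    (Computable.succ.comp (Computable.list_length.comp Computable.fst))).to₂
  exact (d.2.comp (Primrec.list_take.to_comp.comp Computable.snd
    (Computable.fst.comp Computable.fst)) (Computable.snd.comp Computable.fst)).to₂

/-- `P m` are prefixes of `Y` whose lengths tend to infinity. -/
def Grows (P : ℕ → List Bool) (Y : Cantor) : Prop :=
  (∀ m, ∃ l, P m = pre Y l) ∧ ∀ l, ∃ m₀, ∀ m, m₀ ≤ m → l ≤ (P m).length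

/-- `g m i` is correct for `Y` and eventually defined. -/
def Determines (g : ℕ → ℕ → Option Bool) (Y : Cantor) : Prop :=
  (∀ m i v, g m i = some v → v = Y i) ∧ ∀ i, ∃ m₀, ∀ m, m₀ ≤ m → g m i = some (Y i)

theorem gather_spec {g : ℕ → Option Bool} {Y : Cantor} (h : ∀ i v, g i = some v → v = Y i) :
    ∀ n, ∃ l, l ≤ n ∧ gather g n = pre Y l ∧ ∀ k ≤ n, (∀ i < k, g i ≠ none) → k ≤ l := by
  intro n
  induction n with
  | zero => exact ⟨0, le_rfl, rfl, fun k hk _ => hk⟩
  | succ n ih =>
    obtain ⟨l, hl, he, hmax⟩ := ih
    have hlen : (gather g n).length = l := by rw [he, pre_length]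
    by_cases hln : l = n
    · cases hv : g n with
      | none =>
        refine ⟨l, by omega, ?_, fun k hk hd => ?_⟩
        · simp [gather, hlen, hln, hv]
          rw [he, hln]
        · by_contra hc
          exact hd n (by omega) hv
      | some v =>
        refine ⟨n + 1, le_rfl, ?_, fun k hk _ => hk⟩
        simp [gather, hlen, hln, hv]
        rw [he, hln, pre_succ, h n v hv]
    · refine ⟨l, by omega, ?_, fun k hk hd => ?_⟩
      · simp [gather, hlen, hln]
        exact he
      · rcases Nat.lt_or_ge n k with hk' | hk'
        · have := hmax n le_rfl fun i hi => hd i (by omega)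
          omega
        · exact hmax k hk' hd

theorem Determines.grows {g : ℕ → ℕ → Option Bool} {Y : Cantor} (h : Determines g Y) :
    Grows (fun m => gather (g m) m) Y := by
  constructor
  · intro m
    obtain ⟨l, -, he, -⟩ := gather_spec (fun i v hv => h.1 m i v hv) m
    exact ⟨l, he⟩
  · intro l
    choose m₀ hm₀ using fun i => h.2 i
    refine ⟨l + (Finset.range l).sup m₀, fun m hm => ?_⟩
    obtain ⟨l', -, he, hmax⟩ := gather_spec (fun i v hv => h.1 m i v hv) m
    show l ≤ (gather (g m) m).length
    rw [he, pre_length]
    refine hmax l (by omega) fun i hi => ?_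
    have := Finset.le_sup (f := m₀) (Finset.mem_range.2 hi)
    rw [hm₀ i m (by omega)]
    simp

theorem Grows.eval {P : ℕ → List Bool} {X W : Cantor} {d : Code} (h : Grows P X)
    (hd : Computes d X W) : Determines (fun m n => evalCode d.1 (P m) n) W := by
  constructor
  · intro m n v hv
    obtain ⟨k, hk, hv⟩ := firstSome_sound hv
    obtain ⟨l, hl⟩ := h.1 m
    rw [hl, pre_take X (by rw [hl, pre_length] at hk; omega)] at hv
    exact (hd n).2 k v hv
  · intro n
    obtain ⟨k, hk⟩ := (hd n).1
    obtain ⟨m₀, hm₀⟩ := h.2 k
    refine ⟨m₀, fun m hm => ?_⟩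
    obtain ⟨l, hl⟩ := h.1 m
    have hkl : k ≤ l := by simpa [hl, pre_length] using hm₀ m hm
    obtain ⟨w, hw⟩ := firstSome_complete (g := fun i => d.1 ((P m).take i) n)
      (b := (P m).length + 1) (k := k) (by rw [hl, pre_length]; omega)
      (v := W n) (by rw [hl, pre_take X hkl, hk])
    obtain ⟨i, hi, hiw⟩ := firstSome_sound hw
    rw [hl, pre_take X (by rw [hl, pre_length] at hi; omega)] at hiw
    show firstSome _ _ = _
    rw [hw, (hd n).2 i w hiw]

theorem determines_lookup (X : Cantor) (φ : ℕ → ℕ) :
    Determines (fun m i => (pre X m)[φ i]?) (fun i => X (φ i)) := by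
  constructor
  · intro m i v hv
    simp only [pre_getElem] at hv
    split_ifs at hv
    simpa [eq_comm] using hv
  · intro i
    exact ⟨φ i + 1, fun m hm => by simp [pre_getElem, show φ i < m by omega]⟩

/-- Lookup in the join of a finite string and a partial sequence. -/
def joinLookup (ρ : List Bool) (g : ℕ → Option Bool) (i : ℕ) : Option Bool :=
  bif decide (i % 2 = 0) then ρ[i / 2]? else g (i / 2)

theorem Grows.joinLookup {P : ℕ → List Bool} {A B : Cantor} {g : ℕ → ℕ → Option Bool}
    (h : Grows P A) (hg : Determines g B) :
    Determines (fun m i => joinLookup (P m) (g m) i) (join A B) := by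
  constructor
  · intro m i v hv
    obtain ⟨l, hl⟩ := h.1 m
    by_cases hi : i % 2 = 0
    · simp [Vale.Agent.P327.joinLookup, hi, hl, pre_getElem] at hv
      simp [join, hi, hv.2]
    · simp [Vale.Agent.P327.joinLookup, hi] at hv
      simp [join, hi, hg.1 _ _ _ hv]
  · intro i
    by_cases hi : i % 2 = 0
    · obtain ⟨m₀, hm₀⟩ := h.2 (i / 2 + 1)
      refine ⟨m₀, fun m hm => ?_⟩
      obtain ⟨l, hl⟩ := h.1 m
      have : i / 2 < l := by simpa [hl, pre_length] using hm₀ m hm
      simp [Vale.Agent.P327.joinLookup, hi, hl, pre_getElem, this, join]
    · obtain ⟨m₀, hm₀⟩ := hg.2 (i / 2)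
      exact ⟨m₀, fun m hm => by simp [Vale.Agent.P327.joinLookup, hi, join, hm₀ m hm]⟩

theorem computable_joinLookup {α : Type*} [Primcodable α] {ρ : α → List Bool}
    {g : α → ℕ → Option Bool} (hρ : Computable ρ) (hg : Computable₂ g) :
    Computable₂ fun a i => joinLookup (ρ a) (g a) i := by
  have hh : Computable fun p : α × ℕ => p.2 / 2 :=
    (Primrec.nat_div.comp Primrec.snd (Primrec.const 2)).to_comp
  exact (Computable.cond
    (Primrec.eq.comp (Primrec.nat_mod.comp Primrec.snd (Primrec.const 2))
      (Primrec.const 0)).decide.to_comp
    (Computable.list_getElem?.comp (hρ.comp Computable.fst) hh)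
    (hg.comp Computable.fst hh)).to₂

theorem computable_lookup {α : Type*} [Primcodable α] {σ : α → List Bool} {φ : ℕ → ℕ}
    (hσ : Computable σ) (hφ : Computable φ) : Computable₂ fun a i => (σ a)[φ i]? :=
  (Computable.list_getElem?.comp (hσ.comp Computable.fst) (hφ.comp Computable.snd)).to₂

theorem computable_two_mul : Computable fun i : ℕ => 2 * i :=
  (Primrec.nat_mul.comp (Primrec.const 2) Primrec.id).to_comp

theorem computable_two_mul_add : Computable fun i : ℕ => 2 * i + 1 :=
  (Primrec.nat_add.comp (Primrec.nat_mul.comp (Primrec.const 2) Primrec.id)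
    (Primrec.const 1)).to_comp

theorem join_two_mul (X Y : Cantor) (i : ℕ) : join X Y (2 * i) = X i := by simp [join]

theorem join_two_mul_add (X Y : Cantor) (i : ℕ) : join X Y (2 * i + 1) = Y i := by
  simp [join, show (2 * i + 1) % 2 = 1 by omega, show (2 * i + 1) / 2 = i by omega]

/-- The composite of two functionals with separate parameters, uniformly. -/
theorem exists_code_step (e e' : Code) : ∃ d : Code, ∀ A B B' C D : Cantor,
    Computes e (join A B) C → Computes e' (join C B') D → Computes d (join A (join B B')) D := by
  let A' : List Bool → List Bool := fun σ => gather (fun i => σ[2 * i]?) σ.length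
  let J : List Bool → List Bool := fun σ =>
    gather (joinLookup (A' σ) fun i => σ[2 * (2 * i) + 1]?) σ.length
  let C' : List Bool → List Bool := fun σ => gather (evalCode e.1 (J σ)) σ.length
  let J' : List Bool → List Bool := fun σ =>
    gather (joinLookup (C' σ) fun i => σ[2 * (2 * i + 1) + 1]?) σ.length
  have hA : Computable A' :=
    computable_gather (computable_lookup Computable.id computable_two_mul) Computable.list_length
  have hJ : Computable J :=
    computable_gather (computable_joinLookup hA (computable_lookup Computable.id
      (computable_two_mul_add.comp computable_two_mul))) Computable.list_length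
  have hC : Computable C' :=
    computable_gather ((computable_evalCode e).comp (hJ.comp Computable.fst) Computable.snd).to₂
      Computable.list_length
  have hJ' : Computable J' :=
    computable_gather (computable_joinLookup hC (computable_lookup Computable.id
      (computable_two_mul_add.comp computable_two_mul_add))) Computable.list_length
  refine ⟨⟨fun σ n => evalCode e'.1 (J' σ) n,
    ((computable_evalCode e').comp (hJ'.comp Computable.fst) Computable.snd).to₂⟩, ?_⟩
  intro A B B' C D hAB hCB
  set X := join A (join B B') with hX
  have gA : Grows (fun m => A' (pre X m)) A := by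
    have := (determines_lookup X fun i => 2 * i).grows
    simpa [A', hX, join_two_mul, pre_length] using this
  have dB : Determines (fun m i => (pre X m)[2 * (2 * i) + 1]?) B := by
    simpa [hX, join_two_mul, join_two_mul_add] using
      determines_lookup X fun i => 2 * (2 * i) + 1
  have dB' : Determines (fun m i => (pre X m)[2 * (2 * i + 1) + 1]?) B' := by
    simpa [hX, join_two_mul, join_two_mul_add] using
      determines_lookup X fun i => 2 * (2 * i + 1) + 1
  have gJ : Grows (fun m => J (pre X m)) (join A B) := by
    simpa [J, pre_length] using (gA.joinLookup dB).grows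
  have gC : Grows (fun m => C' (pre X m)) C := by
    simpa [C', pre_length] using (gJ.eval hAB).grows
  have gJ' : Grows (fun m => J' (pre X m)) (join C B') := by
    simpa [J', pre_length] using (gC.joinLookup dB').grows
  have hD := gJ'.eval hCB
  intro n
  obtain ⟨m₀, hm₀⟩ := hD.2 n
  exact ⟨⟨m₀, hm₀ m₀ le_rfl⟩, fun m v hv => hD.1 m n v hv⟩

/-- Iterating one functional with a fixed parameter. -/
theorem tle_iterate (d : Code) (R : ℕ → Cantor) (w : Cantor) (n₀ : ℕ)
    (h : ∀ k, Computes d (join (R k) w) (R (k + 1))) :
    TLE (fun k => R k n₀) (join (R 0) w) := by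
  let step : List Bool → List Bool → List Bool := fun σ ρ =>
    gather (evalCode d.1 (gather (joinLookup ρ fun i => σ[2 * i + 1]?) σ.length)) σ.length
  let it : List Bool → ℕ → List Bool := fun σ k =>
    k.rec (gather (fun i => σ[2 * i]?) σ.length) fun _ ρ => step σ ρ
  have hstep : Computable fun p : List Bool × List Bool => step p.1 p.2 :=
    computable_gather ((computable_evalCode d).comp
      ((computable_gather (computable_joinLookup Computable.snd
        (computable_lookup Computable.fst computable_two_mul_add))
        (Computable.list_length.comp Computable.fst)).comp Computable.fst) Computable.snd).to₂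
      (Computable.list_length.comp Computable.fst)
  have hit : Computable fun p : List Bool × ℕ => it p.1 p.2 :=
    Computable.nat_rec Computable.snd
      (computable_gather (computable_lookup Computable.fst computable_two_mul)
        (Computable.list_length.comp Computable.fst))
      (hstep.comp ((Computable.fst.comp Computable.fst).pair
        (Computable.snd.comp Computable.snd))).to₂
  refine ⟨⟨fun σ k => (it σ k)[n₀]?,
    (Computable.list_getElem?.comp hit (Computable.const n₀)).to₂⟩, fun k => ?_⟩
  set X := join (R 0) w with hX
  have dw : Determines (fun m i => (pre X m)[2 * i + 1]?) w := by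
    simpa [hX, join_two_mul_add] using determines_lookup X fun i => 2 * i + 1
  have g : ∀ j, Grows (fun m => it (pre X m) j) (R j) := by
    intro j
    induction j with
    | zero => simpa [it, hX, join_two_mul, pre_length] using (determines_lookup X (2 * ·)).grows
    | succ j ih =>
      simpa [it, step, pre_length] using (((ih.joinLookup dw).grows).eval (h j)).grows
  constructor
  · obtain ⟨m₀, hm₀⟩ := (g k).2 (n₀ + 1)
    obtain ⟨l, hl⟩ := (g k).1 m₀
    have : n₀ < l := by simpa [hl, pre_length] using hm₀ m₀ le_rfl
    exact ⟨m₀, by simp [hl, pre_getElem, this]⟩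
  · intro m v hv
    obtain ⟨l, hl⟩ := (g k).1 m
    simp [hl, pre_getElem] at hv
    exact hv.2.symm

/-- One fixed bit of a functional along computably modified oracles, uniformly in the input. -/
theorem tle_modify (d : Code) (k₀ : ℕ) (ch : ℕ → ℕ → Option Bool) (hch : Computable₂ ch)
    (X W : Cantor)
    (h : ∀ n, ∃ Y, Computes d (fun i => (ch n i).getD (X i)) Y ∧ W n = Y k₀) : TLE W X := by
  let look : List Bool × ℕ → ℕ → Option Bool := fun p i =>
    (ch p.2 i).casesOn p.1[i]? some
  have hlook : Computable₂ look :=
    (Computable.option_casesOn (hch.comp (Computable.snd.comp Computable.fst) Computable.snd)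
      (Computable.list_getElem?.comp (Computable.fst.comp Computable.fst) Computable.snd)
      (Computable.option_some.comp Computable.snd).to₂).to₂
  let J : List Bool × ℕ → List Bool := fun p => gather (look p) p.1.length
  have hJ : Computable J :=
    computable_gather hlook (Computable.list_length.comp Computable.fst)
  refine ⟨⟨fun σ n => evalCode d.1 (J (σ, n)) k₀,
    ((computable_evalCode d).comp hJ (Computable.const k₀)).to₂⟩, fun n => ?_⟩
  obtain ⟨Y, hY, hW⟩ := h n
  have dl : Determines (fun m i => look (pre X m, n) i) (fun i => (ch n i).getD (X i)) := by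
    constructor
    · intro m i v hv
      cases hc : ch n i with
      | none =>
        simp [look, hc, pre_getElem] at hv
        simp [hc, hv.2]
      | some u =>
        simp [look, hc] at hv
        simp [hc, hv]
    · intro i
      refine ⟨i + 1, fun m hm => ?_⟩
      cases hc : ch n i with
      | none => simp [look, hc, pre_getElem, show i < m by omega]
      | some u => simp [look, hc]
  have hD := (show Grows (fun m => J (pre X m, n)) _ by
    simpa [J, pre_length] using dl.grows).eval hY
  rw [hW]
  obtain ⟨m₀, hm₀⟩ := hD.2 k₀
  exact ⟨⟨m₀, hm₀ m₀ le_rfl⟩, fun m v hv => hD.1 m k₀ v hv⟩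

end Vale.Agent.P327
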