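import Vale.Agent.P327.Oracle
import Vale.Agent.P327.Iterate
import Vale.Agent.P327.Borel
import Vale.Agent.P327.Category
import Vale.Agent.P327.Coding

/-!
P327: maps of Cantor space that preserve category, and the elimination lemma.
-/

namespace Vale.Agent.P327

open Topology Filter Set

theorem half_zero_join (X Y : Cantor) : half 0 (join X Y) = X := by
  funext t
  simp [half, join]

theorem half_one_join (X Y : Cantor) : half 1 (join X Y) = Y := by
  funext t
  have h1 : (2 * t + 1) % 2 = 1 := by omega
  have h2 : (2 * t + 1) / 2 = t := by omega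
  simp [half, join, h1, h2]

theorem join_half (x : Cantor) : join (half 0 x) (half 1 x) = x := by
  funext n
  rcases Nat.mod_two_eq_zero_or_one n with h | h
  · have h2 : 2 * (n / 2) = n := by omega
    simp [half, join, h, h2]
  · have h2 : 2 * (n / 2) + 1 = n := by omega
    simp [half, join, h, h2]

theorem join_apply_two_mul (X Y : Cantor) (k : ℕ) : join X Y (2 * k) = X k := by
  simpa [half] using congrFun (half_zero_join X Y) k

theorem continuous_half (s : ℕ) : Continuous (half s) :=
  continuous_pi fun _ => continuous_apply _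

/-- The join as a homeomorphism. -/
noncomputable def joinHomeo : Cantor × Cantor ≃ₜ Cantor where
  toFun p := join p.1 p.2
  invFun x := (half 0 x, half 1 x)
  left_inv p := by simp [half_zero_join, half_one_join]
  right_inv x := join_half x
  continuous_toFun := continuous_join
  continuous_invFun := (continuous_half 0).prodMk (continuous_half 1)

@[simp] theorem joinHomeo_apply (p : Cantor × Cantor) : joinHomeo p = join p.1 p.2 := rfl

theorem continuous_reindex (φ : ℕ → ℕ) : Continuous fun x : Cantor => x ∘ φ :=
  continuous_pi fun _ => continuous_apply _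

theorem measurable_reindex (φ : ℕ → ℕ) : Measurable fun x : Cantor => x ∘ φ :=
  measurable_pi_lambda _ fun _ => measurable_pi_apply _

theorem surjective_reindex {φ : ℕ → ℕ} (hφ : Function.Injective φ) :
    Function.Surjective fun x : Cantor => x ∘ φ :=
  fun y => ⟨Function.extend φ y (fun _ => false), by
    funext n
    simp [hφ.extend_apply]⟩

theorem isOpenMap_reindex {φ : ℕ → ℕ} (hφ : Function.Injective φ) :
    IsOpenMap fun x : Cantor => x ∘ φ := by
  classical
  intro U hU
  rw [isOpen_iff_mem_nhds]
  rintro y ⟨x, hx, rfl⟩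
  obtain ⟨_, ⟨z, N, rfl⟩, hxN, hNU⟩ :=
    (PiNat.isTopologicalBasis_cylinders (fun _ : ℕ => Bool)).exists_subset_of_mem_open hx hU
  have hfin : {n : ℕ | φ n < N}.Finite :=
    (Set.finite_Iio N).preimage hφ.injOn
  have hopen : IsOpen ({n : ℕ | φ n < N}.pi fun n => ({x (φ n)} : Set Bool)) :=
    isOpen_set_pi hfin fun _ _ => isOpen_discrete _
  refine mem_of_superset (hopen.mem_nhds (by intro n _; rfl)) ?_
  intro y' hy'
  refine ⟨Function.extend φ y' x, hNU ?_, ?_⟩
  · rw [PiNat.mem_cylinder_iff]
    intro i hi
    rw [PiNat.mem_cylinder_iff] at hxN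
    by_cases h : ∃ n, φ n = i
    · obtain ⟨n, rfl⟩ := h
      rw [hφ.extend_apply, show y' n = x (φ n) from hy' n hi, hxN _ hi]
    · rw [Function.extend_apply' _ _ _ h, hxN _ hi]
  · funext n
    simp [hφ.extend_apply]

theorem isMeagre_prod_right {α β : Type*} [TopologicalSpace α] [TopologicalSpace β] {A : Set α}
    (hA : IsMeagre A) (B : Set β) : IsMeagre (A ×ˢ B) :=
  (hA.preimage_of_isOpenMap continuous_fst isOpenMap_fst).mono fun _ h => h.1

theorem isMeagre_prod_left {α β : Type*} [TopologicalSpace α] [TopologicalSpace β] (A : Set α)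
    {B : Set β} (hB : IsMeagre B) : IsMeagre (A ×ˢ B) :=
  (hB.preimage_of_isOpenMap continuous_snd isOpenMap_snd).mono fun _ h => h.2

theorem exists_not_isMeagre {α ι : Type*} [TopologicalSpace α] [Countable ι] {S : Set α}
    {f : ι → Set α} (hS : ¬ IsMeagre S) (h : S ⊆ ⋃ i, f i) : ∃ i, ¬ IsMeagre (f i) := by
  by_contra hc
  push Not at hc
  exact hS ((isMeagre_iUnion hc).mono h)

theorem not_isMeagre_diff {α : Type*} [TopologicalSpace α] {S M : Set α}
    (hS : ¬ IsMeagre S) (hM : IsMeagre M) : ¬ IsMeagre (S \ M) :=
  fun h => hS ((h.union hM).mono (by intro a ha; by_cases a ∈ M <;> simp [*]))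

/-- Elimination: a countably valued measurable selection that is computable from `W` is almost
always computable from the coordinates of `W` it is a function of. -/
theorem elim_meagre {q : Cantor → Cantor} {G : ℕ → Cantor → Cantor}
    (hG : ∀ a, Measurable (G a)) (hsel : ∀ Z, ∃ a, G a Z = q Z) (ι φ : ℕ → ℕ)
    (hφc : Computable φ) (hφ : Function.Injective φ) (hφι : ∀ k, φ (ι k) = 2 * k) :
    IsMeagre {W : Cantor | TLE (q (W ∘ ι)) W ∧ ¬ TLE (q (W ∘ ι)) (W ∘ ι)} := by
  set E : ℕ → Set Cantor := fun a =>
    {W | TLE (G a (W ∘ ι)) W ∧ ¬ TLE (G a (W ∘ ι)) (W ∘ ι)} with hE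
  refine (isMeagre_iUnion (f := E) fun a => ?_).mono ?_
  swap
  · intro W hW
    obtain ⟨a, ha⟩ := hsel (W ∘ ι)
    exact mem_iUnion.2 ⟨a, by simpa [hE, ha] using hW⟩
  have hEm : MeasurableSet (E a) :=
    (measurableSet_tle measurable_id ((hG a).comp (measurable_reindex ι))).inter
      (measurableSet_tle (measurable_reindex ι) ((hG a).comp (measurable_reindex ι))).compl
  set ψ : Cantor × Cantor → Cantor := fun p => join p.1 p.2 ∘ φ with hψ
  have hψc : Continuous ψ := (continuous_reindex φ).comp continuous_join
  have hψo : IsOpenMap ψ := (isOpenMap_reindex hφ).comp joinHomeo.isOpenMap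
  have hψs : Function.Surjective ψ := (surjective_reindex hφ).comp joinHomeo.surjective
  refine isMeagre_of_preimage hψc hψo hψs hEm.baireMeasurableSet ?_
  refine isMeagre_of_sections (hEm.baireMeasurableSet.preimage hψc hψo)
    (Eventually.of_forall fun Z => ?_)
  have hZ : ∀ V, ψ (Z, V) ∘ ι = Z := by
    intro V
    funext k
    simp [hψ, hφι, join_apply_two_mul]
  by_cases hgood : TLE (G a Z) Z
  · refine IsMeagre.empty.mono ?_
    intro V hV
    simp only [mem_setOf_eq, mem_preimage, hE, hZ] at hV
    exact hV.2 hgood
  · refine (not_not.1 fun h => hgood (tle_of_not_isMeagre h) :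
      IsMeagre {V | TLE (G a Z) (join Z V)}).mono ?_
    intro V hV
    simp only [mem_setOf_eq, mem_preimage, hE, hZ] at hV
    exact hV.1.trans (tle_comp (join Z V) hφc)

/-- A bitwise computable combination of two positions. -/
theorem tle_map₂ (X : Cantor) (op : Bool → Bool → Bool) {u v : ℕ → ℕ} (hu : Computable u)
    (hv : Computable v) : TLE (fun n => op (X (u n)) (X (v n))) X := by
  have hop : Computable₂ op := Computable₂.mk (Primrec.dom_finite (fun p : Bool × Bool =>
    op p.1 p.2)).to_comp
  refine tle_of_approx (fun σ n => (σ[u n]?).bind fun a => (σ[v n]?).map fun b => op a b) ?_ ?_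
  · exact Computable.option_bind
      ((Primrec.list_getElem?.to_comp).comp Computable.fst (hu.comp Computable.snd))
      (Computable.option_map
        ((Primrec.list_getElem?.to_comp).comp (Computable.fst.comp Computable.fst)
          (hv.comp (Computable.snd.comp Computable.fst)))
        (hop.comp (Computable.snd.comp Computable.fst) Computable.snd).to₂).to₂
  · intro n
    refine ⟨⟨u n + v n + 1, ?_⟩, ?_⟩
    · simp [pre, List.getElem?_range, Nat.lt_add_right, show v n < u n + v n + 1 by omega]
    · intro m w hw
      simp only [pre, List.getElem?_map, Option.bind_eq_some_iff, Option.map_eq_some_iff,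
        List.getElem?_range] at hw
      grind

theorem tle_xor_const (X : Cantor) (c : Bool) : TLE (fun n => Bool.xor (X n) c) X :=
  tle_map₂ X (fun a _ => Bool.xor a c) Computable.id Computable.id

end Vale.Agent.P327
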