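import Vale.Agent.P327.Basic

namespace Vale.Agent.P327

/-- The first value of `g` below `b`. -/
def firstSome {β : Type*} (g : ℕ → Option β) : ℕ → Option β
  | 0 => none
  | n + 1 => (firstSome g n).casesOn (g n) some

theorem firstSome_sound {β : Type*} {g : ℕ → Option β} {b : ℕ} {v : β}
    (h : firstSome g b = some v) : ∃ k < b, g k = some v := by
  induction b with
  | zero => simp [firstSome] at h
  | succ n ih =>
    rw [firstSome] at h
    cases hn : firstSome g n with
    | none => rw [hn] at h; exact ⟨n, n.lt_succ_self, h⟩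
    | some w =>
      rw [hn] at h
      obtain ⟨k, hk, hg⟩ := ih (hn.trans h)
      exact ⟨k, hk.trans n.lt_succ_self, hg⟩

theorem firstSome_complete {β : Type*} {g : ℕ → Option β} {b k : ℕ} (hk : k < b) {v : β}
    (h : g k = some v) : ∃ w, firstSome g b = some w := by
  induction b with
  | zero => omega
  | succ n ih =>
    rw [firstSome]
    cases hn : firstSome g n with
    | some w => exact ⟨w, rfl⟩
    | none =>
      rcases Nat.lt_succ_iff_lt_or_eq.1 hk with hk | rfl
      · obtain ⟨w, hw⟩ := ih hk
        simp [hw] at hn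
      · exact ⟨v, h⟩

theorem computable_firstSome {α β : Type*} [Primcodable α] [Primcodable β]
    {g : α → ℕ → Option β} (hg : Computable₂ g) {b : α → ℕ} (hb : Computable b) :
    Computable fun a => firstSome (g a) (b a) := by
  have step : Computable₂ fun (a : α) (p : ℕ × Option β) =>
      (p.2.casesOn (g a p.1) some : Option β) :=
    (Computable.option_casesOn (Computable.snd.comp Computable.snd)
      (hg.comp Computable.fst (Computable.fst.comp Computable.snd))
      (Computable.option_some.comp₂ Computable.snd.to₂)).to₂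
  refine (Computable.nat_rec hb (Computable.const none) step).of_eq fun a => ?_
  induction b a with
  | zero => rfl
  | succ n ih => simp only [firstSome, ← ih]

theorem pre_take (X : Cantor) {i m : ℕ} (h : i ≤ m) : (pre X m).take i = pre X i := by
  simp [pre, ← List.map_take, List.take_range, Nat.min_eq_left h]

theorem pre_length (X : Cantor) (m : ℕ) : (pre X m).length = m := by simp [pre]

theorem pre_succ (X : Cantor) (m : ℕ) : pre X (m + 1) = pre X m ++ [X m] := by
  simp [pre, List.range_succ]

theorem pre_getElem (X : Cantor) (m i : ℕ) :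
    (pre X m)[i]? = if i < m then some (X i) else none := by
  by_cases h : i < m <;> simp [pre, h]

instance instNonemptyCode : Nonempty Code :=
  ⟨⟨fun _ _ => none, Computable.const none⟩⟩
instance instCountableCode : Countable Code := by
  let F : Code → {g : ℕ → ℕ // Computable g} := fun c =>
    ⟨fun n => Encodable.encode
      ((Encodable.decode (α := List Bool × ℕ) n).map fun q => c.1 q.1 q.2),
      Computable.encode.comp (Computable.option_map (f := fun n => Encodable.decode (α := List Bool × ℕ) n)
        (g := fun _ q => c.1 q.1 q.2) Computable.decode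
        (c.2.comp (Computable.fst.comp Computable.snd) (Computable.snd.comp Computable.snd)).to₂)⟩
  refine Function.Injective.countable (f := F) fun c c' h => ?_
  refine Subtype.ext (funext fun σ => funext fun n => ?_)
  have := congrFun (congrArg Subtype.val h) (Encodable.encode (σ, n))
  simpa [F] using this

theorem Computes.unique {f : Code} {X W W' : Cantor} (h : Computes f X W) (h' : Computes f X W') :
    W = W' := funext fun n => by
  obtain ⟨m, hm⟩ := (h n).1
  exact (h' n).2 m _ hm

/-- A computable approximation gives a reduction. -/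
theorem tle_of_approx {X W : Cantor} (a : List Bool → ℕ → Option Bool) (ha : Computable₂ a)
    (h : Computes ⟨a, ha⟩ X W) : TLE W X :=
  ⟨⟨a, ha⟩, h⟩

/-- A partrec approximation of a partial function, sound and eventually complete along `X`. -/
def Approx (X : Cantor) (f : ℕ →. ℕ) : Prop :=
  ∃ F : List Bool × ℕ →. ℕ, Partrec F ∧
    (∀ m n v, v ∈ F (pre X m, n) → v ∈ f n) ∧
    ∀ n v, v ∈ f n → ∃ m₀, ∀ m, m₀ ≤ m → v ∈ F (pre X m, n)

theorem approx_const (X : Cantor) {g : ℕ →. ℕ} (hg : Nat.Partrec g) : Approx X g :=
  ⟨fun p => g p.2, (Partrec.nat_iff.2 hg).comp Computable.snd, fun _ _ _ h => h,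
    fun _ _ h => ⟨0, fun _ _ => h⟩⟩

theorem approx_of_recursiveIn {X : Cantor} {f : ℕ →. ℕ} (hf : Nat.RecursiveIn {chiB X} f) :
    Approx X f := by
  induction hf with
  | zero => exact approx_const X Nat.Partrec.zero
  | succ => exact approx_const X Nat.Partrec.succ
  | left => exact approx_const X Nat.Partrec.left
  | right => exact approx_const X Nat.Partrec.right
  | oracle g hg =>
    obtain rfl : g = chiB X := hg
    refine ⟨fun p => ↑(p.1[p.2]?.map fun b => bif b then 1 else 0), ?_, ?_, ?_⟩
    · exact Computable.ofOption (Computable.option_map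
        (Computable.list_getElem?.comp Computable.fst Computable.snd)
        (Computable.cond Computable.snd (Computable.const 1) (Computable.const 0)).to₂)
    · intro m n v h
      simp only [pre_getElem, Part.mem_ofOption] at h
      by_cases hn : n < m
      · simpa [hn, chiB, eq_comm] using h
      · simp [hn] at h
    · intro n v h
      refine ⟨n + 1, fun m hm => ?_⟩
      have hn : n < m := by omega
      simpa [pre_getElem, hn, chiB, eq_comm] using h
  | @pair f h _ _ ihf ihh =>
    obtain ⟨F, hF, sF, cF⟩ := ihf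
    obtain ⟨H, hH, sH, cH⟩ := ihh
    refine ⟨fun p => (F p).bind fun a => (H p).map fun b => Nat.pair a b, ?_, ?_, ?_⟩
    · exact hF.bind ((hH.comp Computable.fst).map ((Primrec₂.natPair.to_comp.comp
        (Computable.snd.comp Computable.fst) Computable.snd).to₂)).to₂
    · intro m n v hv
      simp only [Part.mem_bind_iff, Part.mem_map_iff] at hv
      obtain ⟨a, ha, b, hb, rfl⟩ := hv
      have := sF m n a ha
      have := sH m n b hb
      simp [Seq.seq]
      grind
    · intro n v hv
      simp only [Seq.seq, Part.bind_eq_bind, Part.map_eq_map, Part.mem_bind_iff,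
        Part.mem_map_iff] at hv
      obtain ⟨_, ⟨a, ha, rfl⟩, b, hb, rfl⟩ := hv
      obtain ⟨m₁, h₁⟩ := cF n a ha
      obtain ⟨m₂, h₂⟩ := cH n b hb
      refine ⟨max m₁ m₂, fun m hm => ?_⟩
      simp only [Part.mem_bind_iff, Part.mem_map_iff]
      exact ⟨a, h₁ m (le_of_max_le_left hm), b, h₂ m (le_of_max_le_right hm), rfl⟩
  | @comp f h _ _ ihf ihh =>
    obtain ⟨F, hF, sF, cF⟩ := ihf
    obtain ⟨H, hH, sH, cH⟩ := ihh
    refine ⟨fun p => (H p).bind fun a => F (p.1, a), ?_, ?_, ?_⟩
    · exact hH.bind (hF.comp ((Computable.fst.comp Computable.fst).pair Computable.snd)).to₂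
    · intro m n v hv
      simp only [Part.mem_bind_iff] at hv
      obtain ⟨a, ha, hv⟩ := hv
      exact Part.mem_bind_iff.2 ⟨a, sH m n a ha, sF m a v hv⟩
    · intro n v hv
      obtain ⟨a, ha, hv⟩ := Part.mem_bind_iff.1 hv
      obtain ⟨m₁, h₁⟩ := cH n a ha
      obtain ⟨m₂, h₂⟩ := cF a v hv
      refine ⟨max m₁ m₂, fun m hm => ?_⟩
      exact Part.mem_bind_iff.2 ⟨a, h₁ m (le_of_max_le_left hm), h₂ m (le_of_max_le_right hm)⟩
  | @prec f h _ _ ihf ihh =>
    obtain ⟨F, hF, sF, cF⟩ := ihf
    obtain ⟨H, hH, sH, cH⟩ := ihh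
    let R : List Bool → ℕ → ℕ → Part ℕ := fun σ a n => n.rec (F (σ, a))
      fun y IH => IH.bind fun i => H (σ, Nat.pair a (Nat.pair y i))
    refine ⟨fun p => R p.1 p.2.unpair.1 p.2.unpair.2, ?_, ?_, ?_⟩
    · exact Partrec.nat_rec (Computable.snd.comp (Computable.unpair.comp Computable.snd))
        (hF.comp (Computable.fst.pair (Computable.fst.comp (Computable.unpair.comp Computable.snd))))
        (hH.comp ((Computable.fst.comp Computable.fst).pair (Primrec₂.natPair.to_comp.comp
          (Computable.fst.comp (Computable.unpair.comp (Computable.snd.comp Computable.fst)))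
          (Primrec₂.natPair.to_comp.comp (Computable.fst.comp Computable.snd)
            (Computable.snd.comp Computable.snd))))).to₂
    · intro m p v hv
      simp only
      change v ∈ R (pre X m) p.unpair.1 p.unpair.2 at hv
      generalize p.unpair.1 = a, p.unpair.2 = n at hv ⊢
      induction n generalizing v with
      | zero => exact sF m a v hv
      | succ n ih =>
        obtain ⟨i, hi, hv⟩ := Part.mem_bind_iff.1 hv
        exact Part.mem_bind_iff.2 ⟨i, ih i hi, sH m _ v hv⟩
    · intro p v hv
      simp only at hv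
      change ∃ m₀, ∀ m, m₀ ≤ m → v ∈ R (pre X m) p.unpair.1 p.unpair.2
      generalize p.unpair.1 = a, p.unpair.2 = n at hv ⊢
      induction n generalizing v with
      | zero => exact cF a v hv
      | succ n ih =>
        obtain ⟨i, hi, hv⟩ := Part.mem_bind_iff.1 hv
        obtain ⟨m₁, h₁⟩ := ih i hi
        obtain ⟨m₂, h₂⟩ := cH _ v hv
        refine ⟨max m₁ m₂, fun m hm => ?_⟩
        exact Part.mem_bind_iff.2 ⟨i, h₁ m (le_of_max_le_left hm), h₂ m (le_of_max_le_right hm)⟩
  | @rfind f _ ihf =>
    obtain ⟨F, hF, sF, cF⟩ := ihf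
    refine ⟨fun p => Nat.rfind fun n => (F (p.1, Nat.pair p.2 n)).map fun v => decide (v = 0),
      ?_, ?_, ?_⟩
    · exact Partrec.rfind ((hF.comp ((Computable.fst.comp Computable.fst).pair
        (Primrec₂.natPair.to_comp.comp (Computable.snd.comp Computable.fst) Computable.snd))).map
        ((Primrec.eq.comp Primrec.snd (Primrec.const 0)).decide.to_comp).to₂).to₂
    · intro m a v hv
      obtain ⟨h1, h2⟩ := Nat.mem_rfind.1 hv
      refine Nat.mem_rfind.2 ⟨?_, fun {k} hk => ?_⟩
      · obtain ⟨w, hw, e⟩ := (Part.mem_map_iff _).1 h1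
        exact (Part.mem_map_iff _).2 ⟨w, sF m _ w hw, e⟩
      · obtain ⟨w, hw, e⟩ := (Part.mem_map_iff _).1 (h2 hk)
        exact (Part.mem_map_iff _).2 ⟨w, sF m _ w hw, e⟩
    · intro a v hv
      obtain ⟨h1, h2⟩ := Nat.mem_rfind.1 hv
      obtain ⟨w, hw, e⟩ := (Part.mem_map_iff _).1 h1
      obtain ⟨m₁, hm₁⟩ := cF _ w hw
      have : ∀ k : Fin v, ∃ m₂, ∀ m, m₂ ≤ m →
          false ∈ (F (pre X m, Nat.pair a k)).map fun x => decide (x = 0) := fun k => by
        obtain ⟨u, hu, e'⟩ := (Part.mem_map_iff _).1 (h2 k.2)
        obtain ⟨m₂, hm₂⟩ := cF _ u hu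
        exact ⟨m₂, fun m hm => (Part.mem_map_iff _).2 ⟨u, hm₂ m hm, e'⟩⟩
      choose g hg using this
      refine ⟨max m₁ (Finset.univ.sup g), fun m hm => Nat.mem_rfind.2 ⟨?_, fun {k} hk => ?_⟩⟩
      · exact (Part.mem_map_iff _).2 ⟨w, hm₁ m (le_of_max_le_left hm), e⟩
      · exact hg ⟨k, hk⟩ m ((Finset.le_sup (Finset.mem_univ _)).trans (le_of_max_le_right hm))

/-- The encoded prefixes of `X` are recursive in `X`. -/
theorem recursiveIn_pre (X : Cantor) :
    Nat.RecursiveIn {chiB X} fun m => Part.some (Encodable.encode (pre X m)) := by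
  have hbit : Computable fun q : ℕ => Encodable.encode
      ((((Encodable.decode (α := List Bool) q.unpair.1).getD []) ++ [decide (q.unpair.2 = 1)])) :=
    Computable.encode.comp (Computable.list_concat.comp
      (Computable.option_getD (Computable.decode.comp (Computable.fst.comp Computable.unpair))
        (Computable.const []))
      ((Primrec.eq.comp Primrec.fst (Primrec.const 1)).decide.to_comp.comp
        ((Computable.snd.comp Computable.unpair).pair (Computable.const 0))))
  have hy : Computable fun p : ℕ => p.unpair.2.unpair.1 :=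
    Computable.fst.comp (Computable.unpair.comp (Computable.snd.comp Computable.unpair))
  have hi : Computable fun p : ℕ => p.unpair.2.unpair.2 :=
    Computable.snd.comp (Computable.unpair.comp (Computable.snd.comp Computable.unpair))
  have r : ∀ {g : ℕ → ℕ}, Computable g → Nat.RecursiveIn {chiB X} fun n => Part.some (g n) :=
    fun hg => Nat.Partrec.recursiveIn (Partrec.nat_iff.1 hg)
  have hstep : Nat.RecursiveIn {chiB X} fun p =>
      Part.some (Encodable.encode (((Encodable.decode (α := List Bool) p.unpair.2.unpair.2).getD [])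
        ++ [X p.unpair.2.unpair.1])) := by
    refine (Nat.RecursiveIn.comp (r hbit) (Nat.RecursiveIn.pair (r hi)
      (Nat.RecursiveIn.comp (.oracle _ rfl) (r hy)))).of_eq fun p => ?_
    have e : ∀ i, (Part.some i >>= chiB X) = Part.some (bif X i then 1 else 0) :=
      fun i => Part.bind_some i _
    simp only [e, Part.bind_eq_bind, Part.bind_some, Seq.seq, Part.map_eq_map, Part.map_some,
      Nat.unpair_pair]
    cases hX : X p.unpair.2.unpair.1 <;> simp
  have hp := Nat.RecursiveIn.prec (r (Computable.const (Encodable.encode ([] : List Bool)))) hstep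
  refine (Nat.RecursiveIn.comp hp (r (Primrec₂.natPair.to_comp.comp (Computable.const 0)
    Computable.id))).of_eq fun m => ?_
  simp only [id, Part.bind_eq_bind, Part.bind_some, Nat.unpair_pair]
  induction m with
  | zero => rfl
  | succ m ih =>
    show Part.bind _ _ = _
    rw [ih]
    simp [pre_succ]

theorem tle_iff_turingReducible {W X : Cantor} :
    TLE W X ↔ TuringReducible (chiB W) (chiB X) := by
  rw [TuringReducible, RecursiveIn.iff_nat]
  constructor
  · rintro ⟨⟨a, ha⟩, h⟩
    have hg : Computable fun q : ℕ => Encodable.encode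
        (a ((Encodable.decode (α := List Bool) q.unpair.2).getD []) q.unpair.1) :=
      Computable.encode.comp (ha.comp
        (Computable.option_getD (Computable.decode.comp (Computable.snd.comp Computable.unpair))
          (Computable.const [])) (Computable.fst.comp Computable.unpair))
    have r : ∀ {g : ℕ → ℕ}, Computable g → Nat.RecursiveIn {chiB X} fun n => Part.some (g n) :=
      fun hg => Nat.Partrec.recursiveIn (Partrec.nat_iff.1 hg)
    have hev : Nat.RecursiveIn {chiB X} fun p =>
        Part.some (Encodable.encode (a (pre X p.unpair.2) p.unpair.1)) := by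
      refine (Nat.RecursiveIn.comp (r hg) (Nat.RecursiveIn.pair Nat.RecursiveIn.left
        (Nat.RecursiveIn.comp (recursiveIn_pre X) Nat.RecursiveIn.right))).of_eq fun p => ?_
      simp [Seq.seq]
    have hz : Computable fun e : ℕ => bif decide (e = 0) then 1 else 0 :=
      Computable.cond (Primrec.eq.comp Primrec.id (Primrec.const 0)).decide.to_comp
        (Computable.const 1) (Computable.const 0)
    have hf := Nat.RecursiveIn.rfind (Nat.RecursiveIn.comp (r hz) hev)
    have hout : Computable fun e : ℕ => bif decide (e = Encodable.encode (some true)) then 1 else 0 :=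
      Computable.cond (Primrec.eq.comp Primrec.id (Primrec.const _)).decide.to_comp
        (Computable.const 1) (Computable.const 0)
    refine (Nat.RecursiveIn.comp (r hout) (Nat.RecursiveIn.comp hev
      (Nat.RecursiveIn.pair (r Computable.id) hf))).of_eq_tot
      (g := fun n => bif W n then 1 else 0) (fun n => ?_) |>.of_eq fun n => rfl
    obtain ⟨m, hm⟩ := (h n).1
    have hP : ∃ k, (a (pre X k) n).isSome = true := ⟨m, Option.isSome_iff_exists.2 ⟨_, hm⟩⟩
    have hk : Nat.find hP ∈ Nat.rfind fun k => (fun v => decide (v = 0)) <$>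
        ((Part.some (Encodable.encode (a (pre X k) n))).bind fun e =>
          Part.some (bif decide (e = 0) then 1 else 0)) := by
      refine Nat.mem_rfind.2 ⟨?_, fun {k} hk => ?_⟩
      · obtain ⟨v, hv⟩ := Option.isSome_iff_exists.1 (Nat.find_spec hP)
        simp [hv]
      · have := Nat.find_min hP hk
        simp only [Bool.not_eq_true, Option.isSome_eq_false_iff, Option.isNone_iff_eq_none] at this
        simp [this]
    obtain ⟨v, hv⟩ := Option.isSome_iff_exists.1 (Nat.find_spec hP)
    obtain rfl := (h n).2 _ v hv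
    simp only [Part.bind_eq_bind, Seq.seq, Part.map_eq_map, Part.mem_bind_iff, Part.mem_map_iff,
      Part.mem_some_iff, id, exists_eq_left, Nat.unpair_pair]
    refine ⟨_, ⟨_, ⟨_, rfl, Nat.find hP, ?_, rfl⟩, rfl⟩, ?_⟩
    · simpa using hk
    · simp only [Nat.unpair_pair, hv]
      cases W n <;> simp
  · intro h
    obtain ⟨F, hF, sF, cF⟩ := approx_of_recursiveIn h
    have hN : Nat.Partrec fun q =>
        Part.bind (Encodable.decode (α := List Bool × ℕ) q : Option (List Bool × ℕ)) fun p =>
          (F p).map Encodable.encode := hF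
    obtain ⟨c, hc⟩ := Nat.Partrec.Code.exists_code.1 hN
    have hev : ∀ (σ : List Bool) n v,
        v ∈ Nat.Partrec.Code.eval c (Encodable.encode (σ, n)) ↔ v ∈ F (σ, n) := by
      intro σ n v
      rw [hc]
      simp
    let a : List Bool → ℕ → Option Bool := fun σ n =>
      (firstSome (fun i => Nat.Partrec.Code.evaln σ.length c (Encodable.encode (σ.take i, n)))
        (σ.length + 1)).map fun v => decide (v = 1)
    have ha : Computable₂ a := by
      refine (Computable.option_map (computable_firstSome
        (g := fun (p : List Bool × ℕ) i => Nat.Partrec.Code.evaln p.1.length c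
          (Encodable.encode (p.1.take i, p.2)))
        (Computable.to₂ (Nat.Partrec.Code.primrec_evaln.to_comp.comp
          (((Computable.list_length.comp (Computable.fst.comp Computable.fst)).pair
            (Computable.const c)).pair
          (Computable.encode.comp ((Primrec.list_take.to_comp.comp Computable.snd
            (Computable.fst.comp Computable.fst)).pair (Computable.snd.comp Computable.fst))))))
        (Computable.succ.comp (Computable.list_length.comp Computable.fst)))
        ((Primrec.eq.comp Primrec.snd (Primrec.const 1)).decide.to_comp).to₂)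
    have sound : ∀ m n v, a (pre X m) n = some v → v = W n := by
      intro m n v hv
      simp only [a, pre_length, Option.map_eq_some_iff] at hv
      obtain ⟨w, hw, rfl⟩ := hv
      obtain ⟨i, hi, hw⟩ := firstSome_sound hw
      rw [pre_take X (Nat.lt_succ_iff.1 hi)] at hw
      have := sF i n w ((hev _ _ _).1 (Nat.Partrec.Code.evaln_sound hw))
      simp only [chiB, Part.mem_some_iff] at this
      subst this
      cases W n <;> simp
    refine ⟨⟨a, ha⟩, fun n => ⟨?_, fun m v => sound m n v⟩⟩
    obtain ⟨m₀, hm₀⟩ := cF n (bif W n then 1 else 0) (by simp [chiB])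
    obtain ⟨k, hk⟩ := Nat.Partrec.Code.evaln_complete.1 ((hev _ n _).2 (hm₀ m₀ le_rfl))
    have h1 : Nat.Partrec.Code.evaln (max m₀ k) c
        (Encodable.encode ((pre X (max m₀ k)).take m₀, n)) = some (bif W n then 1 else 0) := by
      rw [pre_take X (le_max_left _ _)]
      exact Nat.Partrec.Code.evaln_mono (le_max_right _ _) hk
    obtain ⟨w, hw⟩ := firstSome_complete (Nat.lt_succ_of_le (le_max_left m₀ k))
      (g := fun i => Nat.Partrec.Code.evaln (max m₀ k) c
        (Encodable.encode ((pre X (max m₀ k)).take i, n))) h1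
    refine ⟨max m₀ k, ?_⟩
    have hsome : a (pre X (max m₀ k)) n = some (decide (w = 1)) := by
      simp only [a, pre_length]
      rw [show max m₀ k + 1 = (max m₀ k).succ from rfl, hw, Option.map_some]
    exact hsome.trans (congrArg some (sound _ _ _ hsome))

theorem TLE.refl (X : Cantor) : TLE X X := tle_iff_turingReducible.2 (TuringReducible.refl _)
theorem TLE.trans {X Y Z : Cantor} (h : TLE X Y) (h' : TLE Y Z) : TLE X Z :=
  tle_iff_turingReducible.2
    ((tle_iff_turingReducible.1 h).trans (tle_iff_turingReducible.1 h'))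
theorem TEq.refl (X : Cantor) : TEq X X := ⟨TLE.refl X, TLE.refl X⟩
theorem TEq.symm {X Y : Cantor} (h : TEq X Y) : TEq Y X := ⟨h.2, h.1⟩
theorem TEq.trans {X Y Z : Cantor} (h : TEq X Y) (h' : TEq Y Z) : TEq X Z :=
  ⟨h.1.trans h'.1, h'.2.trans h.2⟩

/-- Computable change of variables. -/
theorem tle_comp (X : Cantor) {φ : ℕ → ℕ} (hφ : Computable φ) : TLE (fun n => X (φ n)) X := by
  refine ⟨⟨fun σ n => σ[φ n]?, Computable.list_getElem?.comp Computable.fst
    (hφ.comp Computable.snd)⟩, fun n => ⟨⟨φ n + 1, ?_⟩, fun m v h => ?_⟩⟩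
  · simp [pre_getElem]
  · simp only [pre_getElem] at h
    split_ifs at h
    simpa [eq_comm] using h

theorem tle_join_left (X Y : Cantor) : TLE X (join X Y) := by
  have h := tle_comp (join X Y) (φ := fun n => 2 * n)
    (Primrec.nat_mul.to_comp.comp (Computable.const 2) Computable.id)
  simpa [join] using h

theorem tle_join_right (X Y : Cantor) : TLE Y (join X Y) := by
  have h := tle_comp (join X Y) (φ := fun n => 2 * n + 1)
    (Computable.succ.comp (Primrec.nat_mul.to_comp.comp (Computable.const 2) Computable.id))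
  have e : ∀ n, (2 * n + 1) / 2 = n := fun n => by omega
  simpa [join, e] using h

theorem join_tle {X Y Z : Cantor} (h : TLE X Z) (h' : TLE Y Z) : TLE (join X Y) Z := by
  obtain ⟨⟨a, ha⟩, hX⟩ := h
  obtain ⟨⟨b, hb⟩, hY⟩ := h'
  refine ⟨⟨fun σ n => bif decide (n % 2 = 0) then a σ (n / 2) else b σ (n / 2),
    Computable.cond ((Primrec.eq.comp (Primrec.nat_mod.comp Primrec.snd (Primrec.const 2))
      (Primrec.const 0)).decide.to_comp)
      (ha.comp Computable.fst (Primrec.nat_div2.to_comp.comp Computable.snd |>.of_eq fun p =>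
        Nat.div2_val p.2))
      (hb.comp Computable.fst (Primrec.nat_div2.to_comp.comp Computable.snd |>.of_eq fun p =>
        Nat.div2_val p.2))⟩, fun n => ?_⟩
  by_cases hn : n % 2 = 0 <;> simp only [join, hn, decide_true, decide_false, cond_true, cond_false,
    ↓reduceIte]
  · exact hX (n / 2)
  · exact hY (n / 2)

theorem tle_bigJoin (X : ℕ → Cantor) (i : ℕ) : TLE (X i) (bigJoin X) := by
  have h := tle_comp (bigJoin X) (φ := fun n => Nat.pair i n)
    (Primrec₂.natPair.to_comp.comp (Computable.const i) Computable.id)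
  simpa [bigJoin] using h

theorem countable_tle (X : Cantor) : {W : Cantor | TLE W X}.Countable := by
  refine Set.Countable.mono ?_ (Set.countable_iUnion fun f : Code =>
    (Set.Subsingleton.countable (fun _ h _ h' => h.unique h' :
      Set.Subsingleton {W : Cantor | Computes f X W})))
  intro W hW
  obtain ⟨f, hf⟩ := hW
  exact Set.mem_iUnion.2 ⟨f, hf⟩

theorem Auto.map_join (π : Auto) (X Y : Cantor) : TEq (π.f (join X Y)) (join (π.f X) (π.f Y)) := by
  refine ⟨?_, join_tle ((π.fmono _ _).2 (tle_join_left X Y)) ((π.fmono _ _).2 (tle_join_right X Y))⟩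
  have hX : TLE X (π.g (join (π.f X) (π.f Y))) :=
    (π.gf X).2.trans ((π.gmono _ _).2 (tle_join_left _ _))
  have hY : TLE Y (π.g (join (π.f X) (π.f Y))) :=
    (π.gf Y).2.trans ((π.gmono _ _).2 (tle_join_right _ _))
  exact ((π.fmono _ _).2 (join_tle hX hY)).trans (π.fg _).1

theorem Auto.f_congr (π : Auto) {X Y : Cantor} (h : TEq X Y) : TEq (π.f X) (π.f Y) :=
  ⟨(π.fmono _ _).2 h.1, (π.fmono _ _).2 h.2⟩

/-- A nonmeagre set is dense in some cylinder. -/
theorem exists_dense_cylinder {S : Set Cantor} (hS : ¬ IsMeagre S) :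
    ∃ σ : List Bool, ∀ τ : List Bool, ∃ t ∈ S, ∀ i < (σ ++ τ).length, t i = (σ ++ τ).getI i := by
  have hne : (interior (closure S)).Nonempty := by
    by_contra h
    exact hS (IsNowhereDense.isMeagre (Set.not_nonempty_iff_eq_empty.1 h))
  obtain ⟨t₀, ht₀⟩ := hne
  obtain ⟨I, u, hu, hsub⟩ := isOpen_pi_iff.1 isOpen_interior t₀ ht₀
  refine ⟨pre t₀ (I.sup id + 1), fun τ => ?_⟩
  set ρ := pre t₀ (I.sup id + 1) ++ τ with hρ
  have hopen : IsOpen {t : Cantor | ∀ i < ρ.length, t i = ρ.getI i} := by
    have : {t : Cantor | ∀ i < ρ.length, t i = ρ.getI i} =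
        ⋂ i ∈ Finset.range ρ.length, (fun t : Cantor => t i) ⁻¹' {ρ.getI i} := by
      ext; simp
    rw [this]
    exact isOpen_biInter_finset fun i _ => (isOpen_discrete _).preimage (continuous_apply i)
  have hcl : (fun i => ρ.getI i : Cantor) ∈ closure S := by
    refine interior_subset (hsub fun i hi => ?_)
    have hi' : i < I.sup id + 1 := Nat.lt_succ_of_le (Finset.le_sup (f := id) hi)
    have : ρ.getI i = t₀ i := by
      have hl : i < (pre t₀ (I.sup id + 1)).length := by rw [pre_length]; exact hi'
      rw [hρ, List.getI_append _ _ _ hl, List.getI_eq_getElem _ hl]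
      simp [pre]
    simpa [this] using (hu i hi).2
  obtain ⟨t, ht, htS⟩ := mem_closure_iff.1 hcl _ hopen (fun i _ => rfl)
  exact ⟨t, htS, ht⟩

/-- The prefix of length `m` of the join of the strings `ρ` and `τ`. -/
def joinStr (ρ τ : List Bool) (m : ℕ) : List Bool :=
  (List.range m).map fun i => bif decide (i % 2 = 0) then ρ.getI (i / 2) else τ.getI (i / 2)

theorem primrec_joinStr :
    Primrec fun q : (List Bool × List Bool) × ℕ => joinStr q.1.1 q.1.2 q.2 := by
  have hi : Primrec fun z : ((List Bool × List Bool) × ℕ) × ℕ => z.2 / 2 :=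
    Primrec.nat_div.comp Primrec.snd (Primrec.const 2)
  exact Primrec.list_map (Primrec.list_range.comp Primrec.snd)
    (Primrec.cond (Primrec.eq.comp (Primrec.nat_mod.comp Primrec.snd (Primrec.const 2))
        (Primrec.const 0)).decide
      (Primrec.list_getI.comp (Primrec.fst.comp (Primrec.fst.comp Primrec.fst)) hi)
      (Primrec.list_getI.comp (Primrec.snd.comp (Primrec.fst.comp Primrec.fst)) hi)).to₂

theorem joinStr_eq (X t : Cantor) {M m : ℕ} {τ : List Bool} (hM : m ≤ M) (hτ : m ≤ τ.length)
    (ht : ∀ i < τ.length, t i = τ.getI i) : joinStr (pre X M) τ m = pre (join X t) m := by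
  refine List.map_congr_left fun i hi => ?_
  have hi' : i / 2 < m := lt_of_le_of_lt (Nat.div_le_self _ _) (List.mem_range.1 hi)
  by_cases he : i % 2 = 0
  · have hl : i / 2 < (pre X M).length := by rw [pre_length]; omega
    simp only [join, he, decide_true, cond_true, ↓reduceIte, List.getI_eq_getElem _ hl]
    simp [pre]
  · simp only [join, he, decide_false, cond_false, ↓reduceIte]
    exact (ht _ (by omega)).symm

/-- Decoding a string, the empty one by default. -/
def decodeStr (k : ℕ) : List Bool := (Encodable.decode (α := List Bool) k).getD []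

theorem computable_decodeStr : Computable decodeStr :=
  Computable.option_getD Computable.decode (Computable.const [])

/-- The guess number `p` in the search for an extension of `σ`. -/
def guess (f : List Bool → ℕ → Option Bool) (σ ρ : List Bool) (n p : ℕ) : Option Bool :=
  bif decide (p.unpair.1 ≤ ρ.length) && decide (p.unpair.1 ≤ (σ ++ decodeStr p.unpair.2).length)
  then f (joinStr ρ (σ ++ decodeStr p.unpair.2) p.unpair.1) n else none

theorem computable_guess {f : List Bool → ℕ → Option Bool} (hf : Computable₂ f) (σ : List Bool) :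
    Computable₂ fun (q : List Bool × ℕ) p => guess f σ q.1 q.2 p := by
  have hτ : Computable fun q : (List Bool × ℕ) × ℕ => σ ++ decodeStr q.2.unpair.2 :=
    Computable.list_append.comp (Computable.const σ)
      (computable_decodeStr.comp (Computable.snd.comp (Computable.unpair.comp Computable.snd)))
  have hm : Computable fun q : (List Bool × ℕ) × ℕ => q.2.unpair.1 :=
    Computable.fst.comp (Computable.unpair.comp Computable.snd)
  have hle : Computable₂ fun a b : ℕ => decide (a ≤ b) := Primrec.nat_le.decide.to_comp
  have hρ : Computable fun q : (List Bool × ℕ) × ℕ => q.1.1 :=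
    Computable.fst.comp Computable.fst
  have hn : Computable fun q : (List Bool × ℕ) × ℕ => q.1.2 :=
    Computable.snd.comp Computable.fst
  have hlρ : Computable fun q : (List Bool × ℕ) × ℕ => q.1.1.length :=
    Computable.list_length.comp hρ
  have hlτ : Computable fun q : (List Bool × ℕ) × ℕ => (σ ++ decodeStr q.2.unpair.2).length :=
    Computable.list_length.comp hτ
  have hc1 : Computable fun q : (List Bool × ℕ) × ℕ => decide (q.2.unpair.1 ≤ q.1.1.length) :=
    hle.comp hm hlρ
  have hc2 : Computable fun q : (List Bool × ℕ) × ℕ =>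
      decide (q.2.unpair.1 ≤ (σ ++ decodeStr q.2.unpair.2).length) :=
    hle.comp hm hlτ
  have hc : Computable fun q : (List Bool × ℕ) × ℕ =>
      decide (q.2.unpair.1 ≤ q.1.1.length) &&
        decide (q.2.unpair.1 ≤ (σ ++ decodeStr q.2.unpair.2).length) :=
    Primrec.and.to_comp.comp hc1 hc2
  have hj : Computable fun q : (List Bool × ℕ) × ℕ =>
      joinStr q.1.1 (σ ++ decodeStr q.2.unpair.2) q.2.unpair.1 :=
    (Computable.comp primrec_joinStr.to_comp ((hρ.pair hτ).pair hm) :)
  have hb : Computable fun q : (List Bool × ℕ) × ℕ =>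
      f (joinStr q.1.1 (σ ++ decodeStr q.2.unpair.2) q.2.unpair.1) q.1.2 :=
    hf.comp hj hn
  exact Computable.of_eq (Computable.cond hc hb (Computable.const none)) fun q => rfl

theorem guess_sound {f : List Bool → ℕ → Option Bool} {σ : List Bool} {X W : Cantor}
    (hf : Computable₂ f)
    (hσ : ∀ τ, ∃ t ∈ {t : Cantor | Computes ⟨f, hf⟩ (join X t) W},
      ∀ i < (σ ++ τ).length, t i = (σ ++ τ).getI i)
    {M n p : ℕ} {v : Bool} (h : guess f σ (pre X M) n p = some v) : v = W n := by
  simp only [guess, pre_length] at h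
  cases hb : (decide (p.unpair.1 ≤ M) &&
      decide (p.unpair.1 ≤ (σ ++ decodeStr p.unpair.2).length)) with
  | false => rw [hb, cond_false] at h; exact absurd h (by simp)
  | true =>
    rw [hb, cond_true] at h
    rw [Bool.and_eq_true, decide_eq_true_iff, decide_eq_true_iff] at hb
    obtain ⟨t, ht, hext⟩ := hσ (decodeStr p.unpair.2)
    rw [joinStr_eq X t hb.1 hb.2 hext] at h
    exact (ht n).2 _ v h

theorem guess_complete {f : List Bool → ℕ → Option Bool} {σ : List Bool} {X t : Cantor}
    (hext : ∀ i < σ.length, t i = σ.getI i) {n m : ℕ} {v : Bool}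
    (h : f (pre (join X t) m) n = some v) :
    ∃ p, guess f σ (pre X (p + 1)) n p = some v := by
  set τ : List Bool := (List.range m).map fun i => t (σ.length + i) with hτ
  refine ⟨Nat.pair m (Encodable.encode τ), ?_⟩
  have hext' : ∀ i < (σ ++ τ).length, t i = (σ ++ τ).getI i := by
    intro i hi
    by_cases hiσ : i < σ.length
    · rw [List.getI_append _ _ _ hiσ]; exact hext i hiσ
    · rw [List.getI_append_right _ _ _ (by omega)]
      have hl : i - σ.length < τ.length := by simp at hi; omega
      rw [List.getI_eq_getElem _ hl]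
      simp [hτ]
      congr 1
      omega
  have h1 : m ≤ Nat.pair m (Encodable.encode τ) + 1 :=
    (Nat.left_le_pair _ _).trans (Nat.le_succ _)
  have h2 : m ≤ (σ ++ τ).length := by simp [hτ]
  simp only [guess, decodeStr, Nat.unpair_pair, Encodable.encodek, Option.getD_some, pre_length]
  rw [decide_eq_true h1, decide_eq_true h2, Bool.and_self, cond_true,
    joinStr_eq X t h1 h2 hext']
  exact h

/-- If `W` is computable from `X` and `t` for nonmeagre many `t`, it is computable from `X`. -/
theorem tle_of_not_isMeagre {W X : Cantor}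
    (h : ¬ IsMeagre {t : Cantor | TLE W (join X t)}) : TLE W X := by
  obtain ⟨⟨f, hf⟩, hnm⟩ : ∃ e : Code, ¬ IsMeagre {t : Cantor | Computes e (join X t) W} := by
    by_contra hc
    push Not at hc
    exact h ((isMeagre_iUnion hc).mono fun t ⟨e, he⟩ => Set.mem_iUnion.2 ⟨e, he⟩)
  obtain ⟨σ, hσ⟩ := exists_dense_cylinder hnm
  have ha : Computable₂ fun (ρ : List Bool) n => firstSome (guess f σ ρ n) ρ.length :=
    computable_firstSome (computable_guess hf σ) (Computable.list_length.comp Computable.fst)
  have sound : ∀ M n v, firstSome (guess f σ (pre X M) n) (pre X M).length = some v → v = W n :=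
    fun M n v hv => by
      obtain ⟨p, -, hp⟩ := firstSome_sound hv
      exact guess_sound hf hσ hp
  refine ⟨⟨_, ha⟩, fun n => ⟨?_, fun M v => sound M n v⟩⟩
  obtain ⟨t, ht, hext⟩ := hσ []
  rw [List.append_nil] at hext
  obtain ⟨m, hm⟩ := (ht n).1
  obtain ⟨p, hp⟩ := guess_complete hext hm
  obtain ⟨w, hw⟩ := firstSome_complete (Nat.lt_succ_self p) hp
  have hw' : firstSome (guess f σ (pre X (p + 1)) n) (pre X (p + 1)).length = some w := by
    rw [pre_length]; exact hw
  exact ⟨p + 1, hw'.trans (congrArg some (sound _ _ _ hw'))⟩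

end Vale.Agent.P327
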