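import Vale.Agent.P327.Common

/-!
P327, stage 2: with a nonmeagre class of fixed parameters, the preimage of each parity half of a real
is, outside a meagre set, computable from the real.
-/

namespace Vale.Agent.P327

open Topology Filter Set

theorem flipAct_twice_of_ne {s : ℕ} (hs : s < 2) {y y₂ : Cantor} (x : Cantor) {n : ℕ}
    (h : n % 2 = s → hcol y₂ n = hcol y n) : flipAct s y₂ (flipAct s y x) n = x n := by
  have key : ∀ t : ℕ, flipAct s y x (2 * t + (1 - s)) = x (2 * t + (1 - s)) := fun t => by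
    unfold flipAct
    rw [if_neg]
    rintro ⟨h', -⟩
    omega
  unfold flipAct at key ⊢
  by_cases hn : n % 2 = s
  · by_cases h0 : hcol y n = 0
    · simp [hn, h hn, h0]
    · simp only [hn, h hn, true_and, ne_eq, h0, not_false_eq_true, if_true, key]
      simp
  · simp [hn]

theorem stage2 (π : Auto) {N0 : Set Cantor} (hN : ¬ IsMeagre N0)
    (hfix : ∀ y ∈ N0, TEq (π.f y) y) {s : ℕ} (hs : s < 2) :
    IsMeagre {x : Cantor | ¬ TLE (π.g (half (1 - s) x)) x} := by
  by_contra hBad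
  obtain ⟨F, G, hF, hG, hFsel, hGsel, hGinv⟩ := π.exists_data
  set Y : Set Cantor := {y | y ∈ N0 ∧ Valid y} with hYdef
  have hY : ¬ IsMeagre Y := by
    refine fun h => hN ((h.union (?_ : IsMeagre {r : Cantor | Valid r}ᶜ)).mono ?_)
    · show _ ∈ residual Cantor
      rw [compl_compl]; exact valid_residual
    · intro x hx; by_cases hv : Valid x <;> simp [hx, hv, hYdef]
  obtain ⟨a, ha⟩ := exists_not_isMeagre
    (f := fun a => {x | ¬ TLE (π.g (half (1 - s) x)) x ∧ F a x = π.f x}) hBad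
    (fun x hx => by obtain ⟨a, ha⟩ := hFsel x; exact mem_iUnion.2 ⟨a, hx, ha⟩)
  set A : Set Cantor := {x | ¬ TLE (π.g (half (1 - s) x)) x ∧ F a x = π.f x} with hAdef
  set B : ℕ × Code × Code → Set (Cantor × Cantor) := fun t =>
    {p | Computes t.2.1 (join (F a p.2) p.1) (F t.1 (flipAct s p.1 p.2)) ∧
      Computes t.2.2 (join (F t.1 (flipAct s p.1 p.2)) p.1) (F a p.2)} with hBdef
  have hBm : ∀ t, MeasurableSet (B t) := fun t => by
    have h2 : Measurable fun p : Cantor × Cantor => F a p.2 := (hF a).comp measurable_snd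
    have h3 : Measurable fun p : Cantor × Cantor => F t.1 (flipAct s p.1 p.2) :=
      (hF t.1).comp (measurable_flipAct s)
    exact (measurableSet_computes t.2.1 (measurable_join.comp (h2.prodMk measurable_fst)) h3).inter
      (measurableSet_computes t.2.2 (measurable_join.comp (h3.prodMk measurable_fst)) h2)
  have hcov : Y ×ˢ A ⊆ ⋃ t, (Y ×ˢ A) ∩ B t := by
    rintro ⟨y, x⟩ ⟨hy, hx⟩
    obtain ⟨c, hc⟩ := hFsel (flipAct s y x)
    have hjoin : ∀ u, TLE (π.f (join u y)) (join (π.f u) y) := fun u =>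
      (π.f_join_tle u y).trans (join_mono (TLE.refl _) (hfix y hy.1).1)
    have e1 : TLE (π.f (flipAct s y x)) (join (π.f x) y) :=
      ((π.fmono _ _).2 (flipAct_tle s hy.2 x)).trans (hjoin x)
    have e2 : TLE (π.f x) (join (π.f (flipAct s y x)) y) := by
      refine ((π.fmono _ _).2 ?_).trans (hjoin _)
      have := flipAct_tle s hy.2 (flipAct s y x)
      rwa [flipAct_flipAct hs] at this
    obtain ⟨e, he⟩ := e1
    obtain ⟨e', he'⟩ := e2
    refine mem_iUnion.2 ⟨(c, e, e'), ⟨hy, hx⟩, ?_⟩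
    simp only [hBdef, mem_setOf_eq]
    rw [hx.2, hc]
    exact ⟨he, he'⟩
  obtain ⟨⟨c, e, e'⟩, hT2⟩ := exists_not_isMeagre (not_isMeagre_prod hY ha) hcov
  obtain ⟨U, hUo, hUne, hU⟩ := exists_largeIn hT2
  obtain ⟨⟨u₁, u₂⟩, hu⟩ := hUne
  obtain ⟨U₁, U₂, hU₁, hU₂, hu₁, hu₂, hUU⟩ := isOpen_prod_iff.1 hUo u₁ u₂ hu
  obtain ⟨w, M, hM⟩ := exists_cylinder_subset hU₁ ⟨u₁, hu₁⟩
  obtain ⟨z, L, hL⟩ := exists_cylinder_subset hU₂ ⟨u₂, hu₂⟩
  set B0 := B (c, e, e') with hB0
  have hbad : IsMeagre ((PiNat.cylinder w M ×ˢ PiNat.cylinder z L) \ B0) :=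
    (isMeagre_diff_of_largeIn hUo hU (hBm _).baireMeasurableSet fun p hp => hp.1.2).mono
      (Set.sdiff_subset_sdiff_left ((Set.prod_mono (hM M le_rfl) (hL L le_rfl)).trans hUU))
  have cylne : ∀ (y : Cantor) (n : ℕ), (PiNat.cylinder y n).Nonempty := fun y n =>
    ⟨y, PiNat.self_mem_cylinder _ _⟩
  have hlarge : ∀ V₁ V₂ : Set Cantor, IsOpen V₁ → V₁.Nonempty → IsOpen V₂ → V₂.Nonempty →
      V₁ ⊆ PiNat.cylinder w M → V₂ ⊆ PiNat.cylinder z L →
      ¬ IsMeagre (Y ∩ V₁) ∧ ¬ IsMeagre (A ∩ V₂) := by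
    intro V₁ V₂ o1 n1 o2 n2 s1 s2
    have hn := hU (V₁ ×ˢ V₂) (o1.prod o2) (n1.prod n2)
      ((Set.prod_mono (s1.trans (hM M le_rfl)) (s2.trans (hL L le_rfl))).trans hUU)
    constructor
    · intro h
      refine hn ((isMeagre_prod_right h V₂).mono ?_)
      rintro ⟨r, x⟩ ⟨⟨⟨hr, -⟩, -⟩, h1, h2⟩
      exact ⟨⟨hr, h1⟩, h2⟩
    · intro h
      refine hn ((isMeagre_prod_left V₁ h).mono ?_)
      rintro ⟨r, x⟩ ⟨⟨⟨-, hx⟩, -⟩, h1, h2⟩
      exact ⟨h1, hx, h2⟩
  have hTzL : ¬ IsMeagre (A ∩ PiNat.cylinder z L) :=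
    (hlarge _ _ (PiNat.isOpen_cylinder _ _ _) (cylne _ _) (PiNat.isOpen_cylinder _ _ _) (cylne _ _)
      subset_rfl subset_rfl).2
  obtain ⟨b, ⟨hbs, hMb⟩, hLb, p, N, k₀, cc, hbN, hp, hbit⟩ :=
    tailDep (hF a) hG (T := A) (fun x hx => by rw [hx.2]; exact hGinv x)
      {n : ℕ | n % 2 = s ∧ M ≤ n}
      (fun K => ⟨2 * (K + M) + s, ⟨by omega, by omega⟩, by omega⟩) z L hTzL
  set rB := padFalse w M with hrB
  obtain ⟨LB, hLB, hcB⟩ := exists_hcol_cylinder (valid_padFalse w M) (b + 1) M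
  set τ := PiNat.cylinder rB LB with hτ
  have hτw : τ ⊆ PiNat.cylinder w M := by
    have hm := padFalse_mem w M
    rw [PiNat.mem_cylinder_iff_eq] at hm
    exact (PiNat.cylinder_anti rB hLB).trans hm.subset
  have hb0 : ∀ y ∈ τ, hcol y b = 0 := fun y hy => by
    rw [hcB y hy b (Nat.lt_succ_self b)]; exact hcol_padFalse w hMb
  set P := punctured p N b with hP
  have hPz : P ⊆ PiNat.cylinder z L := punctured_subset hp hLb hbN
  have hPne : P.Nonempty := ⟨p, fun i _ _ => rfl⟩
  -- the modified parameters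
  set y₂ : ℕ → Cantor → Cantor := fun t y => setCol y b (t + 1) with hy₂
  set st : ℕ → Cantor → Cantor → Cantor := fun t y x => flipAct s (y₂ t y) (flipAct s y x) with hst
  have hstP : ∀ t y, MapsTo (st t y) P P := by
    intro t y x hx n hn hne
    rw [← hx n hn hne]
    exact flipAct_twice_of_ne hs x fun _ => hcol_setCol_ne _ _ hne
  have hstb : ∀ t, ∀ y ∈ τ, ∀ x, st t y x b = Bool.xor (x b) (x (2 * t + (1 - s))) := by
    intro t y hy x
    have key : (2 * t + (1 - s)) % 2 ≠ s := by omega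
    simp [hst, hy₂, flipAct, hbs, hcol_setCol, hb0 y hy]
    intro h' _
    omega
  have hy₂m : ∀ t, Measurable (y₂ t) := fun t => (continuous_setCol b (t + 1)).measurable
  have hstm : ∀ t, Measurable fun q : Cantor × Cantor => st t q.1 q.2 := fun t =>
    (measurable_flipAct s).comp (((hy₂m t).comp measurable_fst).prodMk (measurable_flipAct s))
  set K : Set (Cantor × Cantor) := {q | q.1 ∈ τ ∧ q.2 ∈ P ∧ (q ∉ B0 ∨ ∃ t : ℕ,
    ((y₂ t q.1, st t q.1 q.2) ∉ B0 ∨
      F a (st t q.1 q.2) k₀ ≠ Bool.xor (st t q.1 q.2 b) cc))} with hK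
  have hKm : MeasurableSet K := by
    simp only [hK, Set.setOf_and, Set.setOf_exists, Set.setOf_or]
    refine (measurable_fst (PiNat.isOpen_cylinder _ _ _).measurableSet).inter
      ((measurable_snd (isOpen_punctured p N b).measurableSet).inter
        ((hBm _).compl.union (MeasurableSet.iUnion fun t => ?_)))
    refine ((((hy₂m t).comp measurable_fst).prodMk (hstm t)) (hBm _).compl).union ?_
    have hb : Measurable fun q : Cantor × Cantor => Bool.xor (st t q.1 q.2 b) cc :=
      (Measurable.of_discrete (f := fun v : Bool => Bool.xor v cc)).comp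
        ((measurable_pi_apply b).comp (hstm t))
    exact (measurableSet_eq_fun ((measurable_pi_apply k₀).comp ((hF a).comp (hstm t))) hb).compl
  have hgood := eventually_isMeagre_section hbad
  have hKmeagre : IsMeagre K := by
    refine isMeagre_of_sections hKm.baireMeasurableSet ?_
    have hall : ∀ᶠ y in residual Cantor, ∀ t,
        IsMeagre {x | (y₂ t y, x) ∈ (PiNat.cylinder w M ×ˢ PiNat.cylinder z L) \ B0} :=
      eventually_countable_forall.2 fun t =>
        (tendsto_residual_of_isOpenMap (continuous_setCol b (t + 1))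
          (isOpenMap_setCol b (t + 1))).eventually hgood
    filter_upwards [hgood, hall] with y h1 h2
    by_cases hy : y ∈ τ
    swap
    · refine IsMeagre.empty.mono ?_
      intro x hx
      exact hy hx.1
    refine (h1.union (isMeagre_iUnion (f := fun t => st t y ⁻¹'
      ({x | (y₂ t y, x) ∈ (PiNat.cylinder w M ×ˢ PiNat.cylinder z L) \ B0} ∪
        {x | x ∈ P ∧ F a x k₀ ≠ Bool.xor (x b) cc})) fun t => ?_)).mono ?_
    · exact ((h2 t).union hbit).preimage_of_isOpenMap
        ((continuous_flipAct s _).comp (continuous_flipAct s y))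
        ((isOpenMap_flipAct hs _).comp (isOpenMap_flipAct hs y))
    · rintro x ⟨-, hx, hk | ⟨t, hk | hk⟩⟩
      · exact Or.inl ⟨⟨hτw hy, hPz hx⟩, hk⟩
      · exact Or.inr (mem_iUnion.2 ⟨t, Or.inl ⟨⟨setCol_mem hMb _ (hτw hy),
          hPz (hstP t y hx)⟩, hk⟩⟩)
      · exact Or.inr (mem_iUnion.2 ⟨t, Or.inr ⟨hstP t y hx, hk⟩⟩)
  have hn := hlarge τ P (PiNat.isOpen_cylinder _ _ _) (cylne _ _) (isOpen_punctured _ _ _) hPne
    hτw hPz
  have hT3 := not_isMeagre_diff (not_isMeagre_prod hn.1 hn.2) hKmeagre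
  set T3 := ((Y ∩ τ) ×ˢ (A ∩ P)) \ K with hT3def
  set J : Cantor × Cantor ≃ₜ Cantor := (Homeomorph.prodComm _ _).trans joinHomeo with hJ
  -- elimination of the parameter
  have hel := elim_meagre (q := fun x => π.g (half (1 - s) x)) (G := fun i x => G i (half (1 - s) x))
    (fun i => (hG i).comp (continuous_half _).measurable) (fun x => hGsel _) (fun k => 2 * k) id
    Computable.id Function.injective_id (fun k => rfl)
  refine hT3 (((hel.preimage_of_isOpenMap J.continuous J.isOpenMap)).mono ?_)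
  rintro ⟨y, x⟩ ⟨⟨⟨hyY, hyτ⟩, hxA, hxP⟩, hnK⟩
  have hJeq : J (y, x) = join x y := rfl
  have hcomp : (join x y ∘ fun k => 2 * k) = x := funext fun k => join_apply_two_mul x y k
  simp only [mem_preimage, mem_setOf_eq, hJeq, hcomp]
  refine ⟨?_, hxA.1⟩
  simp only [hK, mem_setOf_eq] at hnK
  push Not at hnK
  obtain ⟨hxy, ht⟩ := hnK hyτ hxP
  obtain ⟨d, hd⟩ := exists_code_step e e'
  set ch : ℕ → ℕ → Option Bool := fun t i =>
    if i % 4 = 3 ∧ (i / 4).unpair.1 = b ∧ (i / 4).unpair.2 ≤ t + 1 then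
      some (decide ((i / 4).unpair.2 < t + 1)) else none with hch
  have hchc : Computable₂ ch := by
    simp only [hch]
    refine Computable₂.mk (Primrec.to_comp ?_)
    have hi : Primrec fun q : ℕ × ℕ => q.2 / 4 :=
      Primrec.nat_div.comp Primrec.snd (Primrec.const 4)
    have hu1 : Primrec fun q : ℕ × ℕ => (q.2 / 4).unpair.1 :=
      Primrec.fst.comp (Primrec.unpair.comp hi)
    have hu2 : Primrec fun q : ℕ × ℕ => (q.2 / 4).unpair.2 :=
      Primrec.snd.comp (Primrec.unpair.comp hi)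
    have hlt : PrimrecPred fun q : ℕ × ℕ => (q.2 / 4).unpair.2 < q.1 + 1 :=
      Primrec.nat_lt.comp hu2 (Primrec.succ.comp Primrec.fst)
    exact Primrec.ite
      ((Primrec.eq.comp (Primrec.nat_mod.comp Primrec.snd (Primrec.const 4)) (Primrec.const 3)).and
        ((Primrec.eq.comp hu1 (Primrec.const b)).and
          (Primrec.nat_le.comp hu2 (Primrec.succ.comp Primrec.fst))))
      (Primrec.option_some.comp hlt.decide) (Primrec.const none)
  have hch' : ∀ t, (fun i => (ch t i).getD (join (F a x) (join y y) i)) =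
      join (F a x) (join y (y₂ t y)) := by
    intro t
    funext i
    simp only [hch, hy₂, setCol, join]
    rcases Nat.mod_two_eq_zero_or_one i with h | h
    · simp [h, show i % 4 ≠ 3 by omega]
    · rcases Nat.mod_two_eq_zero_or_one (i / 2) with h' | h'
      · simp [h, h', show i % 4 ≠ 3 by omega]
      · simp [h, h', show i % 4 = 3 by omega, show i / 2 / 2 = i / 4 by omega]
        split_ifs <;> simp
  have hW : TLE (fun t => F a (st t y x) k₀) (join (F a x) (join y y)) := by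
    refine tle_modify d k₀ ch hchc _ _ fun t => ⟨F a (st t y x), ?_, rfl⟩
    rw [hch' t]
    have h2 := (ht t).1.2
    simp only [hst, flipAct_flipAct hs] at h2 ⊢
    exact hd _ _ _ _ _ hxy.1 h2
  have hv : half (1 - s) x = fun t => Bool.xor (F a (st t y x) k₀) (Bool.xor (x b) cc) := by
    funext t
    rw [(ht t).2, hstb t y hyτ]
    show x (2 * t + (1 - s)) = _
    cases x b <;> cases x (2 * t + (1 - s)) <;> cases cc <;> rfl
  refine π.g_tle_of_tle_f ?_
  rw [hv]
  refine (tle_xor_const _ _).trans (hW.trans ?_)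
  rw [hxA.2]
  have hyy : TLE (join y y) (π.f y) := by
    exact join_tle (hfix y hyY.1).2 (hfix y hyY.1).2
  exact (join_mono (TLE.refl _) hyy).trans (π.join_f_tle x y)

end Vale.Agent.P327
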