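import Vale.Agent.P327.Stage1
import Vale.Agent.P327.Stage2

/-!
P327: rigidity on representatives.
-/

namespace Vale.Agent.P327

open Topology Filter Set

/-- A nonmeagre class of reals on which the inverse image is computable from the real. -/
theorem not_isMeagre_g_tle (π : Auto) : ¬ IsMeagre {z : Cantor | TLE (π.g z) z} := by
  have huniv : ¬ IsMeagre (Set.univ : Set Cantor) :=
    not_isMeagre_of_isOpen isOpen_univ univ_nonempty
  obtain ⟨-, G, -, hG, -, hGsel, -⟩ := π.exists_data
  obtain ⟨ι, φ, hι, -, hφ, hφc, hφι, T, hT, hTW⟩ := stage1 π huniv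
  intro hgood
  refine hT (((elim_meagre hG hGsel ι φ hφc hφ hφι).union
    (hgood.preimage_of_isOpenMap (continuous_reindex ι) (isOpenMap_reindex hι))).mono ?_)
  intro W hW
  by_cases h : TLE (π.g (W ∘ ι)) (W ∘ ι)
  · exact Or.inr h
  · exact Or.inl ⟨(hTW W hW).1, h⟩

/-- A nonmeagre class of fixed reals. -/
theorem not_isMeagre_fixed (π : Auto) : ¬ IsMeagre {z : Cantor | TEq (π.f z) z} := by
  obtain ⟨F, G, hF, hG, hFsel, hGsel, -⟩ := π.exists_data
  obtain ⟨ι, φ, hι, hιc, hφ, hφc, hφι, T, hT, hTW⟩ := stage1 π (not_isMeagre_g_tle π.symm)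
  intro hgood
  refine hT ((((elim_meagre hG hGsel ι φ hφc hφ hφι).union
    (elim_meagre hF hFsel ι φ hφc hφ hφι))).union
    (hgood.preimage_of_isOpenMap (continuous_reindex ι) (isOpenMap_reindex hι)) |>.mono ?_)
  intro W hW
  obtain ⟨hg, x, hx, r, hr, r₂, hr₂, hWeq⟩ := hTW W hW
  have hx' : TLE (π.f x) x := hx
  have hr' : TLE (π.f r) r := hr
  have hr₂' : TLE (π.f r₂) r₂ := hr₂
  have hf : TLE (π.f (W ∘ ι)) W := by
    refine ((π.fmono _ _).2 (tle_comp W hιc)).trans ?_
    rw [hWeq]
    refine (π.f_join_tle _ _).trans (join_mono hx' ((π.f_join_tle _ _).trans (join_mono hr' hr₂')))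
  by_cases h1 : TLE (π.g (W ∘ ι)) (W ∘ ι)
  swap
  · exact Or.inl (Or.inl ⟨hg, h1⟩)
  by_cases h2 : TLE (π.f (W ∘ ι)) (W ∘ ι)
  swap
  · exact Or.inl (Or.inr ⟨hf, h2⟩)
  exact Or.inr ⟨h2, (π.fg _).2.trans ((π.fmono _ _).2 h1)⟩

/-- Outside a meagre set the inverse image is computable from the real. -/
theorem eventually_g_tle (π : Auto) : ∀ᶠ x in residual Cantor, TLE (π.g x) x := by
  have h := (stage2 π (not_isMeagre_fixed π) (fun y hy => hy) (s := 0) (by omega)).union
    (stage2 π (not_isMeagre_fixed π) (fun y hy => hy) (s := 1) (by omega))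
  filter_upwards [h] with x hx
  simp only [mem_compl_iff, mem_union, mem_setOf_eq, not_or, not_not] at hx
  have h1 : TLE (π.g (half 1 x)) x := hx.1
  have h0 : TLE (π.g (half 0 x)) x := hx.2
  have := (π.symm.f_join_tle (half 0 x) (half 1 x)).trans (join_tle h0 h1)
  rwa [join_half] at this

/-- The bitwise sum with a fixed real as a homeomorphism. -/
noncomputable def xorHomeo (A : Cantor) : Cantor ≃ₜ Cantor where
  toFun x := fun n => Bool.xor (x n) (A n)
  invFun x := fun n => Bool.xor (x n) (A n)
  left_inv x := by funext n; simp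
  right_inv x := by funext n; simp
  continuous_toFun := continuous_pi fun n =>
    (continuous_of_discreteTopology (f := fun v : Bool => Bool.xor v (A n))).comp (continuous_apply n)
  continuous_invFun := continuous_pi fun n =>
    (continuous_of_discreteTopology (f := fun v : Bool => Bool.xor v (A n))).comp (continuous_apply n)

theorem g_tle (π : Auto) (A : Cantor) : TLE (π.g A) A := by
  refine tle_of_not_isMeagre fun hm => ?_
  have hgood := eventually_g_tle π
  have hgood' : ∀ᶠ x in residual Cantor, TLE (π.g (xorHomeo A x)) (xorHomeo A x) :=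
    (tendsto_residual_of_isOpenMap (xorHomeo A).continuous (xorHomeo A).isOpenMap).eventually hgood
  obtain ⟨x, hnot, h1, h2⟩ := (dense_of_mem_residual ((show ∀ᶠ x in residual Cantor,
    x ∈ {t : Cantor | TLE (π.g A) (join A t)}ᶜ from hm).and (hgood.and hgood'))).nonempty
  apply hnot
  set u := xorHomeo A x with hu
  have h2u : Computable fun n : ℕ => 2 * n :=
    (Primrec.nat_mul.comp (Primrec.const 2) Primrec.id).to_comp
  have h2v : Computable fun n : ℕ => 2 * n + 1 :=
    (Primrec.nat_add.comp (Primrec.nat_mul.comp (Primrec.const 2) Primrec.id)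
      (Primrec.const 1)).to_comp
  have hjv : ∀ (X Y : Cantor) n, join X Y (2 * n + 1) = Y n := fun X Y n => by
    simpa [half] using congrFun (half_one_join X Y) n
  have hA : TLE A (join x u) := by
    have e := tle_map₂ (join x u) Bool.xor h2u h2v
    have heq : (fun n => Bool.xor (join x u (2 * n)) (join x u (2 * n + 1))) = A := by
      funext n
      rw [join_apply_two_mul, hjv, hu]
      show Bool.xor (x n) (Bool.xor (x n) (A n)) = A n
      simp
    rwa [heq] at e
  have hu' : TLE u (join A x) := by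
    have e := tle_map₂ (join A x) Bool.xor h2v h2u
    have heq : (fun n => Bool.xor (join A x (2 * n + 1)) (join A x (2 * n))) = u := by
      funext n
      rw [join_apply_two_mul, hjv, hu]
      rfl
    rwa [heq] at e
  refine ((π.gmono _ _).2 hA).trans ((π.symm.f_join_tle x u).trans ?_)
  exact (join_tle (h1.trans (tle_join_left _ _)) (h2.trans (tle_join_right _ _))).trans
    (join_tle (tle_join_right A x) hu')

theorem rigidity (π : Auto) (X : Cantor) : TEq (π.f X) X :=
  ⟨g_tle π.symm X, ((π.fg X).2).trans ((π.fmono _ _).2 (g_tle π X))⟩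

end Vale.Agent.P327
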