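import Vale.Agent.P327.Common

/-!
P327, stage 1: from any nonmeagre class of reals, an orbit of row permutations yields a coordinate
part of a join whose preimage under the automorphism is computable from the join.
-/

namespace Vale.Agent.P327

open Topology Filter Set

theorem gam_iterate {b m : ℕ} (hbm : b < m) (k : ℕ) :
    (gam (Nat.pair b m + 1))^[k] b = if k = 0 then b else m + 2 * k - 1 := by
  induction k with
  | zero => simp
  | succ k ih =>
    rw [Function.iterate_succ_apply', ih, if_neg (Nat.succ_ne_zero k)]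
    rcases Nat.eq_zero_or_pos k with hk | hk
    · subst hk
      simp [gam, show ¬ m ≤ b by omega]
    · rw [if_neg (by omega : k ≠ 0)]
      simp only [gam, Nat.add_sub_cancel, Nat.unpair_pair]
      rw [if_neg (by omega), if_neg (by omega), if_neg (by omega), if_neg (by omega),
        if_pos (by omega)]
      omega

/-- The step from one point of the orbit to the next. -/
noncomputable def rowStep (r r₂ x : Cantor) : Cantor := rowActInv r₂ (rowAct r x)

theorem rowStep_apply (r r₂ x : Cantor) (i j : ℕ) :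
    rowStep r r₂ x (Nat.pair i j) = x (Nat.pair i (gam (hcol r i) (gamInv (hcol r₂ i) j))) := by
  simp [rowStep, rowActInv, rowAct]

theorem measurable_rowStep_iterate (k : ℕ) :
    Measurable fun q : (Cantor × Cantor) × Cantor => (rowStep q.1.1 q.1.2)^[k] q.2 := by
  induction k with
  | zero => simpa using measurable_snd
  | succ k ih =>
    simp only [Function.iterate_succ_apply']
    exact measurable_rowActInv.comp ((measurable_snd.comp measurable_fst).prodMk
      (measurable_rowAct.comp ((measurable_fst.comp measurable_fst).prodMk ih)))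

theorem continuous_rowStep_iterate (r r₂ : Cantor) (k : ℕ) :
    Continuous (rowStep r r₂)^[k] :=
  Continuous.iterate ((continuous_rowActInv r₂).comp (continuous_rowAct r)) k

theorem isOpenMap_rowStep_iterate (r r₂ : Cantor) (k : ℕ) :
    IsOpenMap (rowStep r r₂)^[k] := by
  induction k with
  | zero => exact IsOpenMap.id
  | succ k ih =>
    rw [Function.iterate_succ]
    exact ih.comp ((isOpenMap_rowActInv r₂).comp (isOpenMap_rowAct r))

theorem stage1 (π : Auto) {S : Set Cantor} (hS : ¬ IsMeagre S) :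
    ∃ ι φ : ℕ → ℕ, Function.Injective ι ∧ Computable ι ∧ Function.Injective φ ∧ Computable φ ∧
      (∀ k, φ (ι k) = 2 * k) ∧ ∃ T : Set Cantor, ¬ IsMeagre T ∧ ∀ W ∈ T,
        TLE (π.g (W ∘ ι)) W ∧ ∃ x ∈ S, ∃ r ∈ S, ∃ r₂ ∈ S, W = join x (join r r₂) := by
  obtain ⟨F, G, hF, hG, hFsel, -, hGinv⟩ := π.exists_data
  -- a nonmeagre part of `S` on which one candidate is the true image
  have hSv : ¬ IsMeagre (S ∩ {r | Valid r}) := by
    refine fun h => hS ((h.union (?_ : IsMeagre {r : Cantor | Valid r}ᶜ)).mono ?_)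
    · show _ ∈ residual Cantor
      rw [compl_compl]; exact valid_residual
    · intro x hx; by_cases hv : Valid x <;> simp [hx, hv]
  obtain ⟨a, ha⟩ := exists_not_isMeagre
    (f := fun a => {x | x ∈ S ∧ Valid x ∧ F a x = π.f x}) hSv
    (fun x hx => by obtain ⟨a, ha⟩ := hFsel x; exact mem_iUnion.2 ⟨a, hx.1, hx.2, ha⟩)
  set A : Set Cantor := {x | x ∈ S ∧ Valid x ∧ F a x = π.f x} with hAdef
  -- the Borel relations
  set B : ℕ × Code × Code → Set (Cantor × Cantor) := fun t =>
    {p | Computes t.2.1 (join (F a p.2) (F a p.1)) (F t.1 (rowAct p.1 p.2)) ∧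
      Computes t.2.2 (join (F t.1 (rowAct p.1 p.2)) (F a p.1)) (F a p.2)} with hBdef
  have hBm : ∀ t, MeasurableSet (B t) := fun t => by
    have h1 : Measurable fun p : Cantor × Cantor => F a p.1 := (hF a).comp measurable_fst
    have h2 : Measurable fun p : Cantor × Cantor => F a p.2 := (hF a).comp measurable_snd
    have h3 : Measurable fun p : Cantor × Cantor => F t.1 (rowAct p.1 p.2) :=
      (hF t.1).comp measurable_rowAct
    exact (measurableSet_computes t.2.1 (measurable_join.comp (h2.prodMk h1)) h3).inter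
      (measurableSet_computes t.2.2 (measurable_join.comp (h3.prodMk h1)) h2)
  have hcov : A ×ˢ A ⊆ ⋃ t, (A ×ˢ A) ∩ B t := by
    rintro ⟨r, x⟩ ⟨hr, hx⟩
    obtain ⟨c, hc⟩ := hFsel (rowAct r x)
    have e1 : TLE (π.f (rowAct r x)) (join (π.f x) (π.f r)) :=
      ((π.fmono _ _).2 (rowAct_tle hr.2.1 x)).trans (π.f_join_tle x r)
    have e2 : TLE (π.f x) (join (π.f (rowAct r x)) (π.f r)) := by
      refine ((π.fmono _ _).2 ?_).trans (π.f_join_tle _ _)
      have := rowActInv_tle hr.2.1 (rowAct r x)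
      rwa [rowActInv_rowAct] at this
    obtain ⟨e, he⟩ := e1
    obtain ⟨e', he'⟩ := e2
    refine mem_iUnion.2 ⟨(c, e, e'), ⟨hr, hx⟩, ?_⟩
    simp only [hBdef, mem_setOf_eq]
    rw [hr.2.2, hx.2.2, hc]
    exact ⟨he, he'⟩
  obtain ⟨⟨c, e, e'⟩, hT2⟩ := exists_not_isMeagre (not_isMeagre_prod ha ha) hcov
  -- a box
  obtain ⟨U, hUo, hUne, hU⟩ := exists_largeIn hT2
  obtain ⟨⟨u₁, u₂⟩, hu⟩ := hUne
  obtain ⟨U₁, U₂, hU₁, hU₂, hu₁, hu₂, hUU⟩ := isOpen_prod_iff.1 hUo u₁ u₂ hu
  obtain ⟨w, M, hM⟩ := exists_cylinder_subset hU₁ ⟨u₁, hu₁⟩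
  obtain ⟨z, L, hL⟩ := exists_cylinder_subset hU₂ ⟨u₂, hu₂⟩
  set B0 := B (c, e, e') with hB0
  have hbad : IsMeagre ((PiNat.cylinder w M ×ˢ PiNat.cylinder z L) \ B0) :=
    (isMeagre_diff_of_largeIn hUo hU (hBm _).baireMeasurableSet fun p hp => hp.1.2).mono
      (Set.sdiff_subset_sdiff_left ((Set.prod_mono (hM M le_rfl) (hL L le_rfl)).trans hUU))
  have hlarge : ∀ V₁ V₂ : Set Cantor, IsOpen V₁ → V₁.Nonempty → IsOpen V₂ → V₂.Nonempty →
      V₁ ⊆ PiNat.cylinder w M → V₂ ⊆ PiNat.cylinder z L →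
      ¬ IsMeagre (A ∩ V₁) ∧ ¬ IsMeagre (A ∩ V₂) := by
    intro V₁ V₂ o1 n1 o2 n2 s1 s2
    have hn := hU (V₁ ×ˢ V₂) (o1.prod o2) (n1.prod n2)
      ((Set.prod_mono (s1.trans (hM M le_rfl)) (s2.trans (hL L le_rfl))).trans hUU)
    constructor
    · intro h
      refine hn ((isMeagre_prod_right h V₂).mono ?_)
      rintro ⟨r, x⟩ ⟨⟨⟨hr, -⟩, -⟩, h1, h2⟩
      exact ⟨⟨hr, h1⟩, h2⟩
    · intro h
      refine hn ((isMeagre_prod_left V₁ h).mono ?_)
      rintro ⟨r, x⟩ ⟨⟨⟨-, hx⟩, -⟩, h1, h2⟩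
      exact ⟨h1, hx, h2⟩
  have cylne : ∀ (y : Cantor) (n : ℕ), (PiNat.cylinder y n).Nonempty := fun y n =>
    ⟨y, PiNat.self_mem_cylinder _ _⟩
  have hTzL : ¬ IsMeagre (A ∩ PiNat.cylinder z L) :=
    (hlarge _ _ (PiNat.isOpen_cylinder _ _ _) (cylne _ _) (PiNat.isOpen_cylinder _ _ _) (cylne _ _)
      subset_rfl subset_rfl).2
  -- the moving bit
  obtain ⟨b₀, hb₀D, hLb, p, N, k₀, cc, hbN, hp, hbit⟩ :=
    tailDep (hF a) hG (T := A) (fun x hx => by rw [hx.2.2]; exact hGinv x)
      {n : ℕ | M ≤ n.unpair.1}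
      (fun K => ⟨Nat.pair M K, by simp, Nat.right_le_pair M K⟩) z L hTzL
  set i₀ := b₀.unpair.1 with hi₀
  set j₀ := b₀.unpair.2 with hj₀
  have hMi : M ≤ i₀ := hb₀D
  have hb₀ : Nat.pair i₀ j₀ = b₀ := Nat.pair_unpair b₀
  have hj₀N : j₀ < N := lt_of_le_of_lt (Nat.unpair_right_le b₀) hbN
  set h₀ := Nat.pair j₀ N + 1 with hh₀
  set rA := setCol (padFalse w M) i₀ h₀ with hrA
  set rB := padFalse w M with hrB
  obtain ⟨LA, hLA, hcA⟩ := exists_hcol_cylinder (valid_setCol (valid_padFalse w M) i₀ h₀) N M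
  obtain ⟨LB, hLB, hcB⟩ := exists_hcol_cylinder (valid_padFalse w M) N M
  set τA := PiNat.cylinder rA LA with hτA
  set τB := PiNat.cylinder rB LB with hτB
  have hsub : ∀ {y : Cantor} {n : ℕ}, y ∈ PiNat.cylinder w M → M ≤ n →
      PiNat.cylinder y n ⊆ PiNat.cylinder w M := fun {y n} hy hn => by
    rw [PiNat.mem_cylinder_iff_eq] at hy
    exact (PiNat.cylinder_anti y hn).trans hy.subset
  have hAw : τA ⊆ PiNat.cylinder w M := hsub (setCol_mem hMi h₀ (padFalse_mem w M)) hLA
  have hBw : τB ⊆ PiNat.cylinder w M := hsub (padFalse_mem w M) hLB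
  set P := punctured p N b₀ with hP
  have hPz : P ⊆ PiNat.cylinder z L := punctured_subset hp hLb hbN
  have hPne : P.Nonempty := ⟨p, fun i _ _ => rfl⟩
  have hi₀N : i₀ < N := lt_of_le_of_lt (Nat.unpair_left_le b₀) hbN
  -- what one step does
  have hA0 : ∀ r ∈ τA, hcol r i₀ = h₀ := fun r hr => by
    rw [hcA r hr i₀ hi₀N]; exact hcol_setCol _ _ _
  have hB0' : ∀ r ∈ τB, hcol r i₀ = 0 := fun r hr => by
    rw [hcB r hr i₀ hi₀N]; exact hcol_padFalse w hMi
  have hstep : ∀ r ∈ τA, ∀ r₂ ∈ τB, ∀ (x : Cantor) j,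
      rowStep r r₂ x (Nat.pair i₀ j) = x (Nat.pair i₀ (gam h₀ j)) := by
    intro r hr r₂ hr₂ x j
    rw [rowStep_apply, hA0 r hr, hB0' r₂ hr₂]
    simp [gamInv]
  have hfix : ∀ r ∈ τA, ∀ r₂ ∈ τB, MapsTo (rowStep r r₂) P P := by
    intro r hr r₂ hr₂ x hx n hn hne
    have hi : n.unpair.1 < N := lt_of_le_of_lt (Nat.unpair_left_le n) hn
    have hj : n.unpair.2 < N := lt_of_le_of_lt (Nat.unpair_right_le n) hn
    rw [← hx n hn hne]
    conv_lhs => rw [← Nat.pair_unpair n]
    by_cases hii : n.unpair.1 = i₀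
    · rw [hii, hstep r hr r₂ hr₂]
      have hjj : n.unpair.2 ≠ j₀ := fun h => hne (by rw [← Nat.pair_unpair n, hii, h, hb₀])
      have : gam h₀ n.unpair.2 = n.unpair.2 := by
        simp [gam, hh₀, show ¬ N ≤ j₀ by omega, hjj, hj]
      rw [this, ← hii, Nat.pair_unpair]
    · rw [rowStep_apply, hcA r hr _ hi, hcB r₂ hr₂ _ hi, hcol_setCol_ne _ _ hii,
        gam_gamInv, Nat.pair_unpair]
  -- the bad set
  set K : Set ((Cantor × Cantor) × Cantor) := {q | q.1.1 ∈ τA ∧ q.1.2 ∈ τB ∧ q.2 ∈ P ∧ ∃ k : ℕ,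
    ((q.1.1, (rowStep q.1.1 q.1.2)^[k] q.2) ∉ B0 ∨ (q.1.2, (rowStep q.1.1 q.1.2)^[k] q.2) ∉ B0 ∨
      F a ((rowStep q.1.1 q.1.2)^[k] q.2) k₀ ≠
        Bool.xor ((rowStep q.1.1 q.1.2)^[k] q.2 b₀) cc)} with hK
  have hKm : MeasurableSet K := by
    simp only [hK, Set.setOf_and, Set.setOf_exists, Set.setOf_or]
    have h11 : Measurable fun q : (Cantor × Cantor) × Cantor => q.1.1 :=
      measurable_fst.comp measurable_fst
    have h12 : Measurable fun q : (Cantor × Cantor) × Cantor => q.1.2 :=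
      measurable_snd.comp measurable_fst
    refine ((h11 (PiNat.isOpen_cylinder _ _ _).measurableSet)).inter
      (((h12 (PiNat.isOpen_cylinder _ _ _).measurableSet)).inter
        (((measurable_snd (isOpen_punctured p N b₀).measurableSet)).inter
          (MeasurableSet.iUnion fun k => ?_)))
    refine ((h11.prodMk (measurable_rowStep_iterate k)) (hBm _).compl).union
      (((h12.prodMk (measurable_rowStep_iterate k)) (hBm _).compl).union ?_)
    have hb : Measurable fun q : (Cantor × Cantor) × Cantor =>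
        Bool.xor ((rowStep q.1.1 q.1.2)^[k] q.2 b₀) cc :=
      (Measurable.of_discrete (f := fun v : Bool => Bool.xor v cc)).comp
        ((measurable_pi_apply b₀).comp (measurable_rowStep_iterate k))
    exact (measurableSet_eq_fun ((measurable_pi_apply k₀).comp
      ((hF a).comp (measurable_rowStep_iterate k))) hb).compl
  have hgood := eventually_isMeagre_section hbad
  have hKmeagre : IsMeagre K := by
    refine isMeagre_of_sections hKm.baireMeasurableSet ?_
    filter_upwards [(tendsto_residual_of_isOpenMap continuous_fst isOpenMap_fst).eventually hgood,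
      (tendsto_residual_of_isOpenMap continuous_snd isOpenMap_snd).eventually hgood]
    rintro ⟨r, r₂⟩ h1 h2
    by_cases hmem : r ∈ τA ∧ r₂ ∈ τB
    swap
    · refine IsMeagre.empty.mono ?_
      intro x hx
      exact hmem ⟨hx.1, hx.2.1⟩
    refine (isMeagre_iUnion (f := fun k => (rowStep r r₂)^[k] ⁻¹'
      (({x | (r, x) ∈ (PiNat.cylinder w M ×ˢ PiNat.cylinder z L) \ B0} ∪
        {x | (r₂, x) ∈ (PiNat.cylinder w M ×ˢ PiNat.cylinder z L) \ B0}) ∪
        {x | x ∈ P ∧ F a x k₀ ≠ Bool.xor (x b₀) cc})) fun k => ?_).mono ?_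
    · exact ((h1.union h2).union hbit).preimage_of_isOpenMap (continuous_rowStep_iterate r r₂ k)
        (isOpenMap_rowStep_iterate r r₂ k)
    · rintro x ⟨-, -, hx, k, hk⟩
      have hxk : (rowStep r r₂)^[k] x ∈ P := (hfix r hmem.1 r₂ hmem.2).iterate k hx
      refine mem_iUnion.2 ⟨k, ?_⟩
      rcases hk with hk | hk | hk
      · exact Or.inl (Or.inl ⟨⟨hAw hmem.1, hPz hxk⟩, hk⟩)
      · exact Or.inl (Or.inr ⟨⟨hBw hmem.2, hPz hxk⟩, hk⟩)
      · exact Or.inr ⟨hxk, hk⟩
  have hn1 := hlarge τA P (PiNat.isOpen_cylinder _ _ _) (cylne _ _) (isOpen_punctured _ _ _) hPne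
    hAw hPz
  have hn2 := hlarge τB P (PiNat.isOpen_cylinder _ _ _) (cylne _ _) (isOpen_punctured _ _ _) hPne
    hBw hPz
  have hT3 := not_isMeagre_diff (not_isMeagre_prod (not_isMeagre_prod hn1.1 hn2.1) hn1.2) hKmeagre
  set T3 := (((A ∩ τA) ×ˢ (A ∩ τB)) ×ˢ (A ∩ P)) \ K with hT3def
  set J : (Cantor × Cantor) × Cantor ≃ₜ Cantor :=
    ((Homeomorph.prodComm _ _).trans ((Homeomorph.refl Cantor).prodCongr joinHomeo)).trans
      joinHomeo with hJ
  -- the coordinates of the orbit
  set orb : ℕ → ℕ := fun k => if k = 0 then j₀ else N + 2 * k - 1 with horb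
  set ι : ℕ → ℕ := fun k => 2 * Nat.pair i₀ (orb k) with hι
  set φ : ℕ → ℕ := fun n =>
    if n % 2 = 0 ∧ (n / 2).unpair.1 = i₀ ∧ (n / 2).unpair.2 = j₀ then 0
    else if n % 2 = 0 ∧ (n / 2).unpair.1 = i₀ ∧ N < (n / 2).unpair.2 ∧
        ((n / 2).unpair.2 - N) % 2 = 1 then 2 * (((n / 2).unpair.2 - N) / 2 + 1)
    else 2 * n + 1 with hφ
  have horbinj : Function.Injective orb := by
    intro k l hkl
    simp only [horb] at hkl
    split_ifs at hkl <;> omega
  have hφι : ∀ k, φ (ι k) = 2 * k := by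
    intro k
    simp only [hφ, hι, Nat.mul_mod_right, Nat.mul_div_cancel_left _ (Nat.succ_pos 1),
      Nat.unpair_pair, horb]
    rcases Nat.eq_zero_or_pos k with rfl | hk
    · simp
    · simp only [if_neg hk.ne', true_and]
      rw [if_neg (by omega), if_pos (by omega)]
      omega
  refine ⟨ι, φ, ?_, ?_, ?_, ?_, hφι, J '' T3, ?_, ?_⟩
  · intro k l hkl
    apply horbinj
    simpa [hι] using hkl
  · simp only [hι, horb]
    refine Primrec.to_comp ?_
    exact Primrec.nat_mul.comp (Primrec.const 2) (Primrec₂.natPair.comp (Primrec.const i₀)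
      (Primrec.ite (Primrec.eq.comp Primrec.id (Primrec.const 0)) (Primrec.const j₀)
        (Primrec.nat_sub.comp (Primrec.nat_add.comp (Primrec.const N)
          (Primrec.nat_mul.comp (Primrec.const 2) Primrec.id)) (Primrec.const 1))))
  · intro n n' hnn
    have key : ∀ m m' : ℕ, m % 2 = 0 → m' % 2 = 0 → (m / 2).unpair.1 = (m' / 2).unpair.1 →
        (m / 2).unpair.2 = (m' / 2).unpair.2 → m = m' := by
      intro m m' e e' q1 q2
      have : m / 2 = m' / 2 := by
        rw [← Nat.pair_unpair (m / 2), ← Nat.pair_unpair (m' / 2), q1, q2]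
      omega
    simp only [hφ] at hnn
    split_ifs at hnn <;>
      first
        | omega
        | exact key n n' (by tauto) (by tauto) (by omega) (by omega)
  · simp only [hφ]
    refine Primrec.to_comp ?_
    have hh : Primrec fun n : ℕ => n / 2 := Primrec.nat_div.comp Primrec.id (Primrec.const 2)
    have hu1 : Primrec fun n : ℕ => (n / 2).unpair.1 :=
      Primrec.fst.comp (Primrec.unpair.comp hh)
    have hu2 : Primrec fun n : ℕ => (n / 2).unpair.2 :=
      Primrec.snd.comp (Primrec.unpair.comp hh)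
    have hev : PrimrecPred fun n : ℕ => n % 2 = 0 :=
      Primrec.eq.comp (Primrec.nat_mod.comp Primrec.id (Primrec.const 2)) (Primrec.const 0)
    have hd : Primrec fun n : ℕ => (n / 2).unpair.2 - N :=
      Primrec.nat_sub.comp hu2 (Primrec.const N)
    exact Primrec.ite
      (hev.and ((Primrec.eq.comp hu1 (Primrec.const i₀)).and
        (Primrec.eq.comp hu2 (Primrec.const j₀))))
      (Primrec.const 0)
      (Primrec.ite
        (hev.and ((Primrec.eq.comp hu1 (Primrec.const i₀)).and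
          ((Primrec.nat_lt.comp (Primrec.const N) hu2).and
            (Primrec.eq.comp (Primrec.nat_mod.comp hd (Primrec.const 2)) (Primrec.const 1)))))
        (Primrec.nat_mul.comp (Primrec.const 2)
          (Primrec.nat_add.comp (Primrec.nat_div.comp hd (Primrec.const 2)) (Primrec.const 1)))
        (Primrec.nat_add.comp (Primrec.nat_mul.comp (Primrec.const 2) Primrec.id)
          (Primrec.const 1)))
  · intro h
    refine hT3 ?_
    have := h.preimage_of_isOpenMap J.continuous J.isOpenMap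
    rwa [Set.preimage_image_eq _ J.injective] at this
  · rintro _ ⟨⟨⟨r, r₂⟩, x⟩, ⟨⟨⟨⟨hrA', hrτ⟩, hr₂A, hr₂τ⟩, hxA, hxP⟩, hnK⟩, rfl⟩
    have hJeq : J ((r, r₂), x) = join x (join r r₂) := rfl
    refine ⟨?_, x, hxA.1, r, hrA'.1, r₂, hr₂A.1, hJeq⟩
    rw [hJeq]
    have hP' : ∀ k, (rowStep r r₂)^[k] x ∈ P := fun k => (hfix r hrτ r₂ hr₂τ).iterate k hxP
    have hall : ∀ k, (r, (rowStep r r₂)^[k] x) ∈ B0 ∧ (r₂, (rowStep r r₂)^[k] x) ∈ B0 ∧
        F a ((rowStep r r₂)^[k] x) k₀ = Bool.xor ((rowStep r r₂)^[k] x b₀) cc := by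
      intro k
      simp only [hK, mem_setOf_eq] at hnK
      push Not at hnK
      exact hnK hrτ hr₂τ hxP k
    have hit : ∀ k j, (rowStep r r₂)^[k] x (Nat.pair i₀ j) =
        x (Nat.pair i₀ ((gam h₀)^[k] j)) := by
      intro k
      induction k with
      | zero => simp
      | succ k ih =>
        intro j
        rw [Function.iterate_succ_apply', hstep r hrτ r₂ hr₂τ, ih, Function.iterate_succ_apply]
    have hZ : join x (join r r₂) ∘ ι =
        fun k => Bool.xor (F a ((rowStep r r₂)^[k] x) k₀) cc := by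
      funext k
      rw [(hall k).2.2, Function.comp_apply, hι, join_apply_two_mul,
        ← hb₀, hit, hh₀, gam_iterate (by omega) k]
      simp [horb]
    obtain ⟨d, hd⟩ := exists_code_step e e'
    have hrec : ∀ k, Computes d (join (F a ((rowStep r r₂)^[k] x)) (join (F a r) (F a r₂)))
        (F a ((rowStep r r₂)^[k + 1] x)) := by
      intro k
      have h2 := (hall (k + 1)).2.1.2
      have hsame : rowAct r₂ ((rowStep r r₂)^[k + 1] x) = rowAct r ((rowStep r r₂)^[k] x) := by
        rw [Function.iterate_succ_apply', rowStep, rowAct_rowActInv]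
      simp only [hsame] at h2
      exact hd _ _ _ _ _ (hall k).1.1 h2
    have hseq := tle_iterate d (fun k => F a ((rowStep r r₂)^[k] x))
      (join (F a r) (F a r₂)) k₀ hrec
    simp only [Function.iterate_zero_apply] at hseq
    rw [hxA.2.2, hrA'.2.2, hr₂A.2.2] at hseq
    refine π.g_tle_of_tle_f ?_
    rw [hZ]
    refine (tle_xor_const _ cc).trans (hseq.trans ?_)
    exact (join_mono (TLE.refl _) (π.join_f_tle r r₂)).trans (π.join_f_tle x (join r r₂))

end Vale.Agent.P327
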